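import Mathlib

/-! Graded Betti numbers of `S / I`, computed by the Koszul complex. -/

namespace Vale.Agent.P200

open MvPolynomial Module

variable {K : Type*} [Field K] {n : ℕ}

/-- the degree `d` piece of `S / I` -/
noncomputable def quotPiece (I : Ideal (MvPolynomial (Fin n) K)) (d : ℕ) :
    Submodule K (MvPolynomial (Fin n) K ⧸ I) :=
  (homogeneousSubmodule (Fin n) K d).map (Ideal.Quotient.mkₐ K I).toLinearMap

/-- The part of internal degree `j` of the `p`-th term `⋀^p S^n(-p) ⊗ S / I` of the Koszul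
complex: families of elements of `(S / I)_(j - p)` indexed by the `p`-element subsets. -/
noncomputable def koszulChain (I : Ideal (MvPolynomial (Fin n) K)) (p j : ℕ) :
    Submodule K (Finset (Fin n) → MvPolynomial (Fin n) K ⧸ I) where
  carrier := {c | (∀ s, s.card ≠ p → c s = 0) ∧ (∀ s, c s ∈ if p ≤ j then quotPiece I (j - p)
    else ⊥)}
  add_mem' := by
    rintro a b ⟨ha, ha'⟩ ⟨hb, hb'⟩
    exact ⟨fun s hs => by simp [ha s hs, hb s hs], fun s => Submodule.add_mem _ (ha' s) (hb' s)⟩
  zero_mem' := ⟨fun _ _ => rfl, fun _ => Submodule.zero_mem _⟩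
  smul_mem' := by
    rintro k a ⟨ha, ha'⟩
    exact ⟨fun s hs => by simp [ha s hs], fun s => Submodule.smul_mem _ _ (ha' s)⟩

/-- The Koszul differential: `(∂ c)_t = ∑_{i ∉ t} (-1)^{#{k ∈ t : k < i}} x_i c_{t ∪ i}`. -/
noncomputable def koszulD (I : Ideal (MvPolynomial (Fin n) K)) :
    (Finset (Fin n) → MvPolynomial (Fin n) K ⧸ I) →ₗ[K]
      (Finset (Fin n) → MvPolynomial (Fin n) K ⧸ I) where
  toFun c := fun t => ∑ i ∈ tᶜ, (-1 : MvPolynomial (Fin n) K ⧸ I) ^ (t.filter fun k => k < i).card *
    (Ideal.Quotient.mk I (X i) * c (insert i t))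
  map_add' := by
    intro a b
    funext t
    simp [mul_add, Finset.sum_add_distrib]
  map_smul' := by
    intro k a
    funext t
    simp [Finset.smul_sum, mul_smul_comm]

/-- The graded Betti number `β_{p,j}(S / I) = dim Tor_p(S / I, K)_j`, i.e. the dimension of the
part of degree `j` of the `p`-th homology of the Koszul complex of `x_1, …, x_n` on `S / I`. -/
noncomputable def betti (I : Ideal (MvPolynomial (Fin n) K)) (p j : ℕ) : ℕ :=
  finrank K (↥(koszulChain I p j ⊓ LinearMap.ker (koszulD I)) ⧸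
    ((koszulChain I (p + 1) j).map (koszulD I)).comap
      (koszulChain I p j ⊓ LinearMap.ker (koszulD I)).subtype)

end Vale.Agent.P200
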