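import Vale.Agent.P200.B.General3

/-! First Betti numbers. -/

namespace Vale.Agent.P200.B

open MvPolynomial Module

variable {K : Type*} [Field K] {n : ℕ}

/-- families with entries in `W` -/
def pw {V : Type*} [AddCommGroup V] [Module K V] (n : ℕ) (W : Submodule K V) :
    Submodule K (Fin n → V) where
  carrier := {u | ∀ i, u i ∈ W}
  add_mem' := fun ha hb i => W.add_mem (ha i) (hb i)
  zero_mem' := fun _ => W.zero_mem
  smul_mem' := fun k _ ha i => W.smul_mem k (ha i)

theorem mem_pw {V : Type*} [AddCommGroup V] [Module K V] {W : Submodule K V} {u : Fin n → V} :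
    u ∈ pw n W ↔ ∀ i, u i ∈ W := Iff.rfl

/-- `W ^ n` -/
def pwEquiv {V : Type*} [AddCommGroup V] [Module K V] (n : ℕ) (W : Submodule K V) :
    pw n W ≃ₗ[K] (Fin n → W) where
  toFun c := fun s => ⟨c.1 s, c.2 s⟩
  map_add' _ _ := rfl
  map_smul' _ _ := rfl
  invFun c := ⟨fun s => c s, fun s => (c s).2⟩
  left_inv _ := rfl
  right_inv _ := rfl

instance finite_pw {V : Type*} [AddCommGroup V] [Module K V] (W : Submodule K V)
    [Module.Finite K W] : Module.Finite K (pw n W) :=
  Module.Finite.equiv (pwEquiv n W).symm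

theorem finrank_pw {V : Type*} [AddCommGroup V] [Module K V] (W : Submodule K V)
    [Module.Finite K W] : finrank K (pw n W) = n * finrank K W := by
  rw [(pwEquiv n W).finrank_eq, Module.finrank_pi_fintype, Finset.sum_const, Finset.card_univ,
    Fintype.card_fin, smul_eq_mul]

/-- `u ↦ ∑ X_i u_i` -/
noncomputable def sg : (Fin n → MvPolynomial (Fin n) K) →ₗ[K] MvPolynomial (Fin n) K :=
  ∑ i, (LinearMap.mulLeft K (X i)) ∘ₗ LinearMap.proj i

theorem sg_apply (u : Fin n → MvPolynomial (Fin n) K) : sg u = ∑ i, X i * u i := by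
  rw [sg, LinearMap.sum_apply]
  rfl

/-- reduction modulo `I` of families -/
noncomputable def rh (I : Ideal (MvPolynomial (Fin n) K)) :
    (Fin n → MvPolynomial (Fin n) K) →ₗ[K] (Fin n → MvPolynomial (Fin n) K ⧸ I) :=
  LinearMap.pi fun i => (Ideal.Quotient.mkₐ K I).toLinearMap ∘ₗ LinearMap.proj i

theorem rh_apply (I : Ideal (MvPolynomial (Fin n) K)) (u : Fin n → MvPolynomial (Fin n) K)
    (i : Fin n) : rh I u i = Ideal.Quotient.mk I (u i) := rfl

theorem map_sg_pw (j : ℕ) : (pw n (homogeneousSubmodule (Fin n) K j)).map sg =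
    homogeneousSubmodule (Fin n) K (j + 1) := by
  apply le_antisymm
  · rintro _ ⟨u, hu, rfl⟩
    rw [sg_apply]
    refine Submodule.sum_mem _ fun i _ => ?_
    rw [add_comm]
    exact (isHomogeneous_X K i).mul (hu i)
  · intro g hg
    refine ⟨fun a => dd a g, fun a => dd_isHomogeneous a hg, ?_⟩
    rw [sg_apply]
    exact (eq_sum_X_mul_dd hg).symm

theorem pair_unique {a b a' b' : Fin n} (h : a < b) (h' : a' < b')
    (he : ({a, b} : Finset (Fin n)) = {a', b'}) : a = a' ∧ b = b' := by
  have h1 : a ∈ ({a', b'} : Finset (Fin n)) := by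
    rw [← he]
    simp
  have h2 : b ∈ ({a', b'} : Finset (Fin n)) := by
    rw [← he]
    simp
  rw [Finset.mem_insert, Finset.mem_singleton] at h1 h2
  rcases h1 with h1 | h1 <;> rcases h2 with h2 | h2
  · rw [h1, h2] at h
    exact absurd h (lt_irrefl _)
  · exact ⟨h1, h2⟩
  · rw [h1, h2] at h
    exact absurd (h.trans h') (lt_irrefl _)
  · rw [h1, h2] at h
    exact absurd h (lt_irrefl _)

open Classical in
/-- the family indexed by pairs -/
noncomputable def pr {R : Type*} [Zero R] (f : Fin n → Fin n → R) (s : Finset (Fin n)) : R :=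
  if h : ∃ p : Fin n × Fin n, p.1 < p.2 ∧ s = {p.1, p.2} then f h.choose.1 h.choose.2 else 0

theorem pr_pair {R : Type*} [Zero R] (f : Fin n → Fin n → R) {a b : Fin n} (h : a < b) :
    pr f {a, b} = f a b := by
  have h1 : ∃ p : Fin n × Fin n, p.1 < p.2 ∧ ({a, b} : Finset (Fin n)) = {p.1, p.2} :=
    ⟨(a, b), h, rfl⟩
  rw [pr, dif_pos h1]
  obtain ⟨h2, h3⟩ := pair_unique h h1.choose_spec.1 h1.choose_spec.2
  rw [← h2, ← h3]

theorem pr_of_card {R : Type*} [Zero R] (f : Fin n → Fin n → R) {s : Finset (Fin n)}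
    (h : s.card ≠ 2) : pr f s = 0 := by
  rw [pr, dif_neg]
  rintro ⟨p, hp, rfl⟩
  exact h (Finset.card_pair hp.ne)

theorem pr_mem {R : Type*} [AddCommGroup R] [Module K R] (W : Submodule K R)
    (f : Fin n → Fin n → R) (hf : ∀ a b, f a b ∈ W) (s : Finset (Fin n)) : pr f s ∈ W := by
  rw [pr]
  split_ifs with h
  · exact hf _ _
  · exact W.zero_mem

/-- the differential of a family of pairs -/
theorem kd_pr {R : Type*} [CommRing R] (x : Fin n → R) (f : Fin n → Fin n → R) (b : Fin n) :
    kd x (pr f) {b} = ∑ a ∈ Finset.univ.filter (fun k => k < b), x a * f a b -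
      ∑ a ∈ Finset.univ.filter (fun k => b < k), x a * f b a := by
  classical
  rw [kd_apply]
  have h1 : ({b}ᶜ : Finset (Fin n)) = Finset.univ.filter (fun k => k < b) ∪
      Finset.univ.filter (fun k => b < k) := by
    ext k
    simp only [Finset.mem_compl, Finset.mem_singleton, Finset.mem_union, Finset.mem_filter,
      Finset.mem_univ, true_and]
    exact lt_or_lt_iff_ne.symm
  have h2 : Disjoint (Finset.univ.filter (fun k => k < b))
      (Finset.univ.filter (fun k => b < k)) := by
    rw [Finset.disjoint_left]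
    intro k hk hk'
    rw [Finset.mem_filter] at hk hk'
    exact absurd (hk.2.trans hk'.2) (lt_irrefl _)
  rw [h1, Finset.sum_union h2, sub_eq_add_neg, ← Finset.sum_neg_distrib]
  congr 1
  · refine Finset.sum_congr rfl fun a ha => ?_
    have ha' := (Finset.mem_filter.1 ha).2
    rw [Finset.filter_singleton, if_neg (not_lt.2 ha'.le), Finset.card_empty, pow_zero, one_mul,
      pr_pair f ha']
  · refine Finset.sum_congr rfl fun a ha => ?_
    have ha' := (Finset.mem_filter.1 ha).2
    rw [Finset.filter_singleton, if_pos ha', Finset.card_singleton, pow_one, neg_one_mul,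
      Finset.pair_comm, pr_pair f ha']

/-- the boundaries in `C_1`, seen as families, are the reductions of the linear syzygies -/
theorem bd_eq (I : Ideal (MvPolynomial (Fin n) K)) (j : ℕ) :
    ((koszulChain I 2 (j + 1)).map (koszulD I)).map
      (LinearMap.pi fun i : Fin n => (LinearMap.proj {i} :
        (Finset (Fin n) → MvPolynomial (Fin n) K ⧸ I) →ₗ[K] MvPolynomial (Fin n) K ⧸ I)) =
    (pw n (homogeneousSubmodule (Fin n) K j) ⊓ LinearMap.ker sg).map (rh I) := by
  classical
  apply le_antisymm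
  · rintro _ ⟨_, ⟨c, hc, rfl⟩, rfl⟩
    -- lift the chain
    have h1 : ∀ s, ∃ g : MvPolynomial (Fin n) K, Ideal.Quotient.mk I g = c s ∧
        ∀ i, (X i * g).IsHomogeneous j := by
      intro s
      have h2 := hc.2 s
      by_cases hj : 2 ≤ j + 1
      · rw [if_pos hj] at h2
        obtain ⟨g, hg, hg'⟩ := mem_quotPiece.1 h2
        refine ⟨g, hg', fun i => ?_⟩
        have h3 := (isHomogeneous_X K i).mul hg
        rwa [show 1 + (j + 1 - 2) = j by omega] at h3
      · rw [if_neg hj, Submodule.mem_bot] at h2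
        refine ⟨0, by rw [h2, map_zero], fun i => ?_⟩
        rw [mul_zero]
        exact isHomogeneous_zero _ _ _
    choose g hg hg' using h1
    refine ⟨fun i => kd X g {i}, ⟨?_, ?_⟩, ?_⟩
    · intro i
      simp only
      rw [kd_apply]
      refine Submodule.sum_mem _ fun k _ => ?_
      rcases neg_one_pow_eq_or (MvPolynomial (Fin n) K)
        (({i} : Finset (Fin n)).filter fun l => l < k).card with h | h
      · rw [h, one_mul]
        exact hg' _ _
      · rw [h, neg_one_mul]
        exact Submodule.neg_mem _ (hg' _ _)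
    · refine LinearMap.mem_ker.2 ?_
      rw [sg_apply]
      have h3 := congrFun (kd_sq (X : Fin n → MvPolynomial (Fin n) K) g) ∅
      rw [kd_apply, Finset.compl_empty] at h3
      simpa using h3
    · funext i
      rw [rh_apply]
      exact (kd_map _ _ _ _).trans (by
        simp only [hg]
        rfl)
  · rintro _ ⟨u, ⟨hu1, hu2⟩, rfl⟩
    have hu3 : ∑ i, X i * u i = 0 := by
      rw [← sg_apply]
      exact LinearMap.mem_ker.1 hu2
    have hmem : ∀ a b, Ideal.Quotient.mk I (dd a (u b)) ∈
        if 2 ≤ j + 1 then quotPiece I (j + 1 - 2) else ⊥ := by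
      intro a b
      by_cases hj : 2 ≤ j + 1
      · rw [if_pos hj]
        obtain ⟨m, rfl⟩ : ∃ m, j = m + 1 := ⟨j - 1, by omega⟩
        exact mem_quotPiece.2 ⟨_, dd_isHomogeneous a (hu1 b), rfl⟩
      · rw [if_neg hj, Submodule.mem_bot]
        have hj0 : j = 0 := by omega
        subst hj0
        rw [dd_of_isHomogeneous_zero a (hu1 b), map_zero]
    refine ⟨koszulD I (pr fun a b => Ideal.Quotient.mk I (dd a (u b))),
      ⟨_, ⟨fun s hs => pr_of_card _ hs, fun s => pr_mem _ _ hmem s⟩, rfl⟩, ?_⟩
    funext i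
    rw [rh_apply]
    change koszulD I (pr fun a b => Ideal.Quotient.mk I (dd a (u b))) {i} = _
    rw [koszulD_eq_kd, kd_pr, syz_eq hu3 i, map_sub, map_sum, map_sum]
    simp only [map_mul]
    rw [← syz_eq hu3 i]

/-- the count -/
theorem betti_one_aux (I : Ideal (MvPolynomial (Fin n) K)) (j : ℕ) :
    betti I 1 (j + 1) + finrank K ((pw n (piece I j)).map sg) =
      finrank K (piece I (j + 1)) := by
  classical
  have h1 := betti_add I 1 (j + 1)
  have h2 := finrank_cycles_add I 1 (j + 1)
  rw [finrank_C0_bd, finrank_koszulChain, Nat.choose_one_right, if_pos (by omega),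
    Nat.add_sub_cancel] at h2
  -- boundaries
  have h3 : finrank K (((koszulChain I 2 (j + 1)).map (koszulD I)).map
      (LinearMap.pi fun i : Fin n => (LinearMap.proj {i} :
        (Finset (Fin n) → MvPolynomial (Fin n) K ⧸ I) →ₗ[K] MvPolynomial (Fin n) K ⧸ I))) =
      finrank K ((koszulChain I 2 (j + 1)).map (koszulD I)) := by
    refine finrank_map_of_inj _ _ fun w hw hw0 => ?_
    have h4 := (map_koszulD_le' I 1 (j + 1) hw).1
    funext s
    by_cases hs : s.card = 1
    · obtain ⟨i, rfl⟩ := Finset.card_eq_one.1 hs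
      exact congrFun hw0 i
    · exact h4.1 s hs
  rw [bd_eq] at h3
  -- linear syzygies
  have h4 := finrank_map_add (rh I) (pw n (homogeneousSubmodule (Fin n) K j) ⊓ LinearMap.ker sg)
  have h5 := finrank_map_add (sg (K := K) (n := n)) (pw n (homogeneousSubmodule (Fin n) K j))
  have h6 := finrank_map_add (sg (K := K) (n := n)) (pw n (piece I j))
  have h7 : (pw n (homogeneousSubmodule (Fin n) K j) ⊓ LinearMap.ker sg) ⊓
      LinearMap.ker (rh I) = pw n (piece I j) ⊓ LinearMap.ker sg := by
    ext u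
    constructor
    · rintro ⟨⟨h8, h9⟩, h10⟩
      refine ⟨fun i => ⟨?_, h8 i⟩, h9⟩
      have h11 := congrFun (LinearMap.mem_ker.1 h10) i
      exact Ideal.Quotient.eq_zero_iff_mem.1 h11
    · rintro ⟨h8, h9⟩
      refine ⟨⟨fun i => (h8 i).2, h9⟩, LinearMap.mem_ker.2 ?_⟩
      funext i
      exact Ideal.Quotient.eq_zero_iff_mem.2 (h8 i).1
  rw [h7] at h4
  rw [map_sg_pw, finrank_pw] at h5
  rw [finrank_pw] at h6
  have h8 := G.finrank_piece_add_hilb I j
  have h9 := G.finrank_piece_add_hilb I (j + 1)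
  have h10 : n * finrank K (homogeneousSubmodule (Fin n) K j) =
      n * finrank K (piece I j) + n * hilb I j := by
    rw [← h8, mul_add]
  simp only [Nat.reduceAdd] at h1
  generalize n * finrank K (homogeneousSubmodule (Fin n) K j) = x1 at h5 h10
  generalize n * finrank K (piece I j) = x2 at h6 h10
  generalize n * hilb I j = x3 at h2 h10
  omega

end Vale.Agent.P200.B
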