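import Vale.Agent.P200.B.Defs
import Vale.Agent.P200.G.HilbBasic
import Vale.Agent.P200.B.General4

/-! General facts on the Koszul Betti numbers. -/

namespace Vale.Agent.P200.B

open MvPolynomial Module

variable {K : Type*} [Field K] {n : ℕ}

/-- `S_1 W` -/
noncomputable def shd (W : Submodule K (MvPolynomial (Fin n) K)) :
    Submodule K (MvPolynomial (Fin n) K) :=
  ⨆ i : Fin n, W.map (LinearMap.mulLeft K (X i : MvPolynomial (Fin n) K))

/-- forms of degree `d` which are multiplied into `I` by all variables -/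
noncomputable def socPiece (I : Ideal (MvPolynomial (Fin n) K)) (d : ℕ) :
    Submodule K (MvPolynomial (Fin n) K) where
  carrier := {u | u ∈ homogeneousSubmodule (Fin n) K d ∧ ∀ i, X i * u ∈ I}
  add_mem' := by
    rintro a b ⟨ha, ha'⟩ ⟨hb, hb'⟩
    exact ⟨Submodule.add_mem _ ha hb, fun i => by rw [mul_add]; exact I.add_mem (ha' i) (hb' i)⟩
  zero_mem' := ⟨Submodule.zero_mem _, fun i => by simp⟩
  smul_mem' := by
    rintro k a ⟨ha, ha'⟩
    refine ⟨Submodule.smul_mem _ _ ha, fun i => ?_⟩
    rw [mul_smul_comm, MvPolynomial.smul_eq_C_mul]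
    exact I.mul_mem_left _ (ha' i)

theorem koszulD_sq (I : Ideal (MvPolynomial (Fin n) K))
    (c : Finset (Fin n) → MvPolynomial (Fin n) K ⧸ I) : koszulD I (koszulD I c) = 0 :=
  koszulD_sq' I c

theorem map_koszulD_le (I : Ideal (MvPolynomial (Fin n) K)) (p j : ℕ) :
    (koszulChain I (p + 1) j).map (koszulD I) ≤
      koszulChain I p j ⊓ LinearMap.ker (koszulD I) :=
  map_koszulD_le' I p j

theorem betti_of_lt (I : Ideal (MvPolynomial (Fin n) K)) {p j : ℕ} (h : n < p ∨ j < p) :
    betti I p j = 0 :=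
  betti_of_lt' I h

theorem betti_zero (I : Ideal (MvPolynomial (Fin n) K)) (hI : HomIdeal I) (j : ℕ) :
    betti I 0 j = if j = 0 then hilb I 0 else 0 :=
  betti_zero' I j

theorem map_sg_eq_shd (W : Submodule K (MvPolynomial (Fin n) K)) :
    (pw n W).map sg = shd W := by
  classical
  apply le_antisymm
  · rintro _ ⟨u, hu, rfl⟩
    rw [sg_apply]
    exact Submodule.sum_mem _ fun i _ => Submodule.mem_iSup_of_mem i ⟨u i, hu i, rfl⟩
  · refine iSup_le fun i => ?_
    rintro _ ⟨w, hw, rfl⟩
    refine ⟨fun k => if k = i then w else 0, fun k => ?_, ?_⟩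
    · by_cases h : k = i
      · simp only [h]
        exact hw
      · simp only [h]
        exact W.zero_mem
    · rw [sg_apply]
      simp

theorem betti_one (I : Ideal (MvPolynomial (Fin n) K)) (hI : HomIdeal I) (j : ℕ) :
    betti I 1 (j + 1) + finrank K (shd (piece I j)) = finrank K (piece I (j + 1)) := by
  rw [← map_sg_eq_shd]
  exact betti_one_aux I j

theorem betti_top (I : Ideal (MvPolynomial (Fin n) K)) (hI : HomIdeal I) (j : ℕ) :
    betti I n (j + n) + finrank K (piece I j) = finrank K (socPiece I j) :=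
  betti_top_aux I j (socPiece I j) fun _ => Iff.rfl

theorem betti_euler (I : Ideal (MvPolynomial (Fin n) K)) (hI : HomIdeal I) (j : ℕ) :
    ∑ p ∈ Finset.range (n + 1), (-1 : ℤ) ^ p * betti I p j =
      ∑ p ∈ Finset.range (n + 1), (-1 : ℤ) ^ p * (n.choose p) *
        (if p ≤ j then (hilb I (j - p) : ℤ) else 0) :=
  betti_euler' I j

end Vale.Agent.P200.B
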