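import Vale.Agent.P200.B.Tor
import Vale.Agent.P200.B.General

/-! The compact definition of the Betti numbers agrees with the one used in the proofs. -/

namespace Vale.Agent.P200.B

open MvPolynomial Module

variable {K : Type*} [Field K] {n : ℕ}

theorem koszulTerm_eq (I : Ideal (MvPolynomial (Fin n) K)) (p j : ℕ) :
    koszulTerm I p j = (koszulChain I p j : Set (Finset (Fin n) → MvPolynomial (Fin n) K ⧸ I)) := by
  ext c
  simp only [koszulTerm, koszulChain, quotPiece, Set.mem_setOf_eq, SetLike.mem_coe,
    Submodule.mem_mk, AddSubmonoid.mem_mk, AddSubsemigroup.mem_mk]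
  constructor
  · intro h
    refine ⟨fun s hs => ?_, fun s => ?_⟩
    · rcases h s with h | h
      · exact h
      · exact absurd h.1 hs
    · rcases h s with h | ⟨_, d, g, hd, hg, he⟩
      · rw [h]
        exact Submodule.zero_mem _
      · rw [if_pos (by omega)]
        refine ⟨g, ?_, he⟩
        rw [SetLike.mem_coe, mem_homogeneousSubmodule]
        rwa [← hd, Nat.add_sub_cancel_left]
  · rintro ⟨h1, h2⟩ s
    by_cases hs : s.card = p
    · have := h2 s
      by_cases hp : p ≤ j
      · rw [if_pos hp] at this
        obtain ⟨g, hg, he⟩ := this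
        exact Or.inr ⟨hs, j - p, g, by omega, hg, he⟩
      · rw [if_neg hp] at this
        exact Or.inl ((Submodule.mem_bot K).mp this)
    · exact Or.inl (h1 s hs)

theorem koszulDiff_eq (I : Ideal (MvPolynomial (Fin n) K)) :
    (koszulDiff I : (Finset (Fin n) → MvPolynomial (Fin n) K ⧸ I) → _) = koszulD I := by
  funext c t
  simp only [koszulDiff, koszulD, LinearMap.coe_mk, AddHom.coe_mk]
  apply Finset.sum_congr rfl
  intro i _
  rw [map_mul, map_pow, map_neg, map_one, mul_assoc]

theorem setFinrank_coe {V : Type*} [AddCommGroup V] [Module K V] (W : Submodule K V) :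
    Set.finrank K (W : Set V) = finrank K W := by
  rw [Set.finrank, Submodule.span_eq]

theorem bettiNumber_eq (I : Ideal (MvPolynomial (Fin n) K)) (p j : ℕ) :
    bettiNumber I p j = betti I p j := by
  have h := (((koszulChain I (p + 1) j).map (koszulD I)).comap
    (koszulChain I p j ⊓ LinearMap.ker (koszulD I)).subtype).finrank_quotient_add_finrank
  have h2 : finrank K ↥(((koszulChain I (p + 1) j).map (koszulD I)).comap
      (koszulChain I p j ⊓ LinearMap.ker (koszulD I)).subtype) =
      finrank K ↥((koszulChain I (p + 1) j).map (koszulD I)) := by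
    exact LinearEquiv.finrank_eq (Submodule.comapSubtypeEquivOfLe (map_koszulD_le I p j))
  have h3 : {c | c ∈ koszulTerm I p j ∧ koszulDiff I c = 0} =
      ((koszulChain I p j ⊓ LinearMap.ker (koszulD I) :
        Submodule K (Finset (Fin n) → MvPolynomial (Fin n) K ⧸ I)) : Set _) := by
    ext c
    simp only [koszulTerm_eq, koszulDiff_eq, Set.mem_setOf_eq, SetLike.mem_coe, Submodule.mem_inf,
      LinearMap.mem_ker]
  have h4 : koszulDiff I '' koszulTerm I (p + 1) j =
      ((koszulChain I (p + 1) j).map (koszulD I) : Set _) := by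
    rw [koszulTerm_eq, koszulDiff_eq, Submodule.map_coe]
  rw [bettiNumber, h3, h4, setFinrank_coe, setFinrank_coe, betti]
  omega

end Vale.Agent.P200.B
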