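import Vale.Agent.P200.B.Lpp
import Vale.Agent.P200.B.TorEq
import Vale.Agent.P200.G.Final

/-!
Eisenbud-Green-Harris for `c ≤ 3` in any number of variables over every field (and for
regular sequences of any length with split forms and fast growing degrees), and the
lex-plus-powers conjecture for `n ≤ 3`.
-/

namespace Vale.Agent.P200.B

open MvPolynomial

/-- The hypothesis on the regular sequence, for a prefix of it. -/
theorem case_prefix {K : Type*} [Field K] {n c c' : ℕ} (h' : c' ≤ c) {a : Fin c → ℕ}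
    {f : Fin c → MvPolynomial (Fin n) K}
    (hcase : c ≤ 3 ∨ ∃ T : Finset (Fin c),
      (∀ i ∈ T, 3 ≤ (T.filter fun j => j < i).card →
        ∑ j ∈ T.filter fun j => j < i, (a j - 1) < a i) ∧
      ∀ i, i ∉ T →
        SplitsLinear (a i) (MvPolynomial.map (algebraMap K (AlgebraicClosure K)) (f i))) :
    c' ≤ 3 ∨ ∃ T : Finset (Fin c'),
      (∀ i ∈ T, 3 ≤ (T.filter fun j => j < i).card →
        ∑ j ∈ T.filter fun j => j < i, (a (Fin.castLE h' j) - 1) < a (Fin.castLE h' i)) ∧
      ∀ i, i ∉ T →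
        SplitsLinear (a (Fin.castLE h' i))
          (MvPolynomial.map (algebraMap K (AlgebraicClosure K)) (f (Fin.castLE h' i))) := by
  rcases hcase with hc | ⟨T, hT, hs⟩
  · exact Or.inl (h'.trans hc)
  · right
    refine ⟨Finset.univ.filter fun i => Fin.castLE h' i ∈ T, ?_, ?_⟩
    · intro i hi h3
      rw [Finset.mem_filter] at hi
      have key : ((Finset.univ.filter fun i => Fin.castLE h' i ∈ T).filter fun j => j < i).map
          (Fin.castLEEmb h') = T.filter fun j => j < Fin.castLE h' i := by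
        ext j
        simp only [Finset.mem_map, Finset.mem_filter, Finset.mem_univ, true_and]
        constructor
        · rintro ⟨k, ⟨hk, hki⟩, rfl⟩
          exact ⟨hk, hki⟩
        · rintro ⟨hj, hji⟩
          have hj' : j.1 < c' := lt_trans hji i.2
          exact ⟨⟨j.1, hj'⟩, ⟨hj, hji⟩, rfl⟩
      have h1 := hT _ hi.2
      rw [← key, Finset.card_map, Finset.sum_map] at h1
      exact h1 h3
    · intro i hi
      apply hs
      intro hiT
      exact hi (by simp [hiT])

/-- The conjecture of Eisenbud, Green and Harris for these sequences. -/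
theorem egh_case {K : Type*} [Field K] {n c : ℕ} (h : c ≤ n) (a : Fin c → ℕ)
    (ha : Monotone a) (h2 : ∀ i, 2 ≤ a i) (f : Fin c → MvPolynomial (Fin n) K)
    (hf : ∀ i, (f i).IsHomogeneous (a i)) (hreg : IsRegularSeq f)
    (hcase : c ≤ 3 ∨ ∃ T : Finset (Fin c),
      (∀ i ∈ T, 3 ≤ (T.filter fun j => j < i).card →
        ∑ j ∈ T.filter fun j => j < i, (a j - 1) < a i) ∧
      ∀ i, i ∉ T →
        SplitsLinear (a i) (MvPolynomial.map (algebraMap K (AlgebraicClosure K)) (f i))) :
    B.EGHfor h a f := by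
  intro I hI hfI
  rcases hcase with hc | ⟨T, hT, hs⟩
  · exact G.egh_le_three K h hc a ha h2 f hf hreg I hI hfI
  · exact G.egh_final K h a ha h2 f hf hreg T ⟨hT⟩ hs I hI hfI

theorem egh_and_lpp (K : Type*) [Field K] {n c : ℕ} (h : c ≤ n) (a : Fin c → ℕ)
    (ha : Monotone a) (h2 : ∀ i, 2 ≤ a i) (f : Fin c → MvPolynomial (Fin n) K)
    (hf : ∀ i, (f i).IsHomogeneous (a i)) (hreg : IsRegularSeq f)
    (hcase : c ≤ 3 ∨ ∃ T : Finset (Fin c),
      (∀ i ∈ T, 3 ≤ (T.filter fun j => j < i).card →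
        ∑ j ∈ T.filter fun j => j < i, (a j - 1) < a i) ∧
      ∀ i, i ∉ T →
        SplitsLinear (a i) (MvPolynomial.map (algebraMap K (AlgebraicClosure K)) (f i)))
    (I : Ideal (MvPolynomial (Fin n) K)) (hI : ∀ g ∈ I, ∀ d, homogeneousComponent d g ∈ I)
    (hfI : ∀ i, f i ∈ I) :
    ∃ J : Ideal (MvPolynomial (Fin n) K),
      J.restrictScalars K = lexPlusPowers h a I ∧
      (∀ j, bettiNumber I 1 j ≤ bettiNumber J 1 j) ∧
      (∀ j, bettiNumber I n j ≤ bettiNumber J n j) ∧
      (n ≤ 3 → ∀ p j, bettiNumber I p j ≤ bettiNumber J p j) := by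
  have hpos : ∀ i, 1 ≤ a i := fun i => le_trans one_le_two (h2 i)
  have hE : ∀ (c' : ℕ) (h' : c' ≤ c), B.EGHfor (h'.trans h)
      (fun i : Fin c' => a (Fin.castLE h' i)) (fun i : Fin c' => f (Fin.castLE h' i)) := by
    intro c' h'
    exact egh_case (h'.trans h) _ (fun i j hij => ha (by exact hij)) (fun i => h2 _) _
      (fun i => hf _) (B.regular_castLE hreg h') (case_prefix h' hcase)
  obtain ⟨J, hJ⟩ := egh_case h a ha h2 f hf hreg hcase I hI hfI
  simp only [B.bettiNumber_eq]
  exact ⟨J, hJ, B.betti_one_le h a ha hpos f hf hreg hE I hI hfI J hJ,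
    B.betti_top_le h a ha hpos f hf hreg (hE c le_rfl) I hI hfI J hJ,
    fun hn => B.lpp_le_three hn h a ha hpos f hf hreg hE I hI hfI J hJ⟩

end Vale.Agent.P200.B
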