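import Vale.Agent.P200.B.Defs
import Vale.Agent.P200.G.HilbBasic

/-! The Koszul complex: it is a complex, and the dimensions of its terms. -/

namespace Vale.Agent.P200.B

open MvPolynomial Module

variable {K : Type*} [Field K] {n : ℕ}

theorem koszulD_apply (I : Ideal (MvPolynomial (Fin n) K))
    (c : Finset (Fin n) → MvPolynomial (Fin n) K ⧸ I) (t : Finset (Fin n)) :
    koszulD I c t = ∑ i ∈ tᶜ, (-1 : MvPolynomial (Fin n) K ⧸ I) ^
      (t.filter fun k => k < i).card * (Ideal.Quotient.mk I (X i) * c (insert i t)) := rfl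

/-- the Koszul differential over any commutative ring -/
def kd {R : Type*} [CommRing R] (x : Fin n → R) (c : Finset (Fin n) → R) :
    Finset (Fin n) → R := fun t => ∑ i ∈ tᶜ, (-1 : R) ^ (t.filter fun k => k < i).card *
      (x i * c (insert i t))

theorem kd_apply {R : Type*} [CommRing R] (x : Fin n → R) (c : Finset (Fin n) → R)
    (t : Finset (Fin n)) : kd x c t = ∑ i ∈ tᶜ, (-1 : R) ^ (t.filter fun k => k < i).card *
      (x i * c (insert i t)) := rfl

theorem koszulD_eq_kd (I : Ideal (MvPolynomial (Fin n) K))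
    (c : Finset (Fin n) → MvPolynomial (Fin n) K ⧸ I) :
    koszulD I c = kd (fun i => Ideal.Quotient.mk I (X i)) c := rfl

theorem kd_map {R R' : Type*} [CommRing R] [CommRing R'] (f : R →+* R') (x : Fin n → R)
    (c : Finset (Fin n) → R) (t : Finset (Fin n)) :
    f (kd x c t) = kd (fun i => f (x i)) (fun s => f (c s)) t := by
  rw [kd_apply, kd_apply, map_sum]
  refine Finset.sum_congr rfl fun i _ => ?_
  simp

theorem kd_sq {R : Type*} [CommRing R] (x : Fin n → R) (c : Finset (Fin n) → R) :
    kd x (kd x c) = 0 := by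
  classical
  funext t
  rw [kd_apply, Pi.zero_apply]
  have h1 : ∀ i ∈ tᶜ, (-1 : R) ^ (t.filter fun k => k < i).card *
      (x i * kd x c (insert i t)) =
      ∑ j ∈ (insert i t)ᶜ, (-1 : R) ^
        ((t.filter fun k => k < i).card + ((insert i t).filter fun k => k < j).card) *
        (x i * x j * c (insert j (insert i t))) := by
    intro i _
    rw [kd_apply, Finset.mul_sum, Finset.mul_sum]
    refine Finset.sum_congr rfl fun j _ => ?_
    rw [pow_add]
    ring
  rw [Finset.sum_congr rfl h1, Finset.sum_sigma']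
  refine Finset.sum_involution (fun a _ => ⟨a.2, a.1⟩) ?_ ?_ ?_ ?_
  · rintro ⟨i, j⟩ h
    simp only [Finset.mem_sigma, Finset.mem_compl, Finset.mem_insert, not_or] at h
    obtain ⟨hi, hji, hj⟩ := h
    have h2 : insert i (insert j t) = insert j (insert i t) := Finset.insert_comm _ _ _
    simp only [h2]
    rw [mul_comm (x j) (x i), ← add_mul]
    have h3 : ∀ a b : Fin n, a ∉ t → a < b → ((insert a t).filter fun k => k < b).card =
        (t.filter fun k => k < b).card + 1 := by
      intro a b ha hab
      rw [Finset.filter_insert, if_pos hab, Finset.card_insert_of_notMem]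
      simp [ha]
    have h4 : ∀ a b : Fin n, ¬ a < b → ((insert a t).filter fun k => k < b).card =
        (t.filter fun k => k < b).card := by
      intro a b hab
      rw [Finset.filter_insert, if_neg hab]
    rcases lt_or_gt_of_ne hji with hlt | hlt
    · rw [h3 j i hj hlt, h4 i j (not_lt.2 hlt.le)]
      ring
    · rw [h3 i j hi hlt, h4 j i (not_lt.2 hlt.le)]
      ring
  · rintro ⟨i, j⟩ h _ heq
    simp only [Finset.mem_sigma, Finset.mem_compl, Finset.mem_insert, not_or] at h
    simp only [Sigma.mk.injEq] at heq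
    exact h.2.1 heq.1
  · rintro ⟨i, j⟩ h
    simp only [Finset.mem_sigma, Finset.mem_compl, Finset.mem_insert, not_or] at h ⊢
    exact ⟨h.2.2, fun hh => h.2.1 hh.symm, h.1⟩
  · rintro ⟨i, j⟩ h
    rfl

theorem koszulD_sq' (I : Ideal (MvPolynomial (Fin n) K))
    (c : Finset (Fin n) → MvPolynomial (Fin n) K ⧸ I) : koszulD I (koszulD I c) = 0 := by
  rw [koszulD_eq_kd, koszulD_eq_kd]
  exact kd_sq _ _

theorem mem_koszulChain {I : Ideal (MvPolynomial (Fin n) K)} {p j : ℕ}
    {c : Finset (Fin n) → MvPolynomial (Fin n) K ⧸ I} :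
    c ∈ koszulChain I p j ↔ (∀ s, s.card ≠ p → c s = 0) ∧
      (∀ s, c s ∈ if p ≤ j then quotPiece I (j - p) else ⊥) := Iff.rfl

theorem mem_quotPiece {I : Ideal (MvPolynomial (Fin n) K)} {d : ℕ}
    {x : MvPolynomial (Fin n) K ⧸ I} :
    x ∈ quotPiece I d ↔ ∃ u : MvPolynomial (Fin n) K, u.IsHomogeneous d ∧
      Ideal.Quotient.mk I u = x := Iff.rfl

theorem X_mul_mem_quotPiece {I : Ideal (MvPolynomial (Fin n) K)} {d : ℕ} (i : Fin n)
    {x : MvPolynomial (Fin n) K ⧸ I} (hx : x ∈ quotPiece I d) :
    Ideal.Quotient.mk I (X i) * x ∈ quotPiece I (d + 1) := by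
  obtain ⟨u, hu, rfl⟩ := mem_quotPiece.1 hx
  refine mem_quotPiece.2 ⟨X i * u, ?_, map_mul _ _ _⟩
  rw [add_comm]
  exact (isHomogeneous_X K i).mul hu

theorem sign_mul_mem {I : Ideal (MvPolynomial (Fin n) K)}
    (W : Submodule K (MvPolynomial (Fin n) K ⧸ I)) (m : ℕ)
    {x : MvPolynomial (Fin n) K ⧸ I} (hx : x ∈ W) :
    (-1 : MvPolynomial (Fin n) K ⧸ I) ^ m * x ∈ W := by
  rcases neg_one_pow_eq_or (MvPolynomial (Fin n) K ⧸ I) m with h | h
  · rw [h, one_mul]
    exact hx
  · rw [h, neg_one_mul]
    exact W.neg_mem hx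

theorem map_koszulD_le' (I : Ideal (MvPolynomial (Fin n) K)) (p j : ℕ) :
    (koszulChain I (p + 1) j).map (koszulD I) ≤
      koszulChain I p j ⊓ LinearMap.ker (koszulD I) := by
  classical
  rintro _ ⟨c, hc, rfl⟩
  obtain ⟨hc1, hc2⟩ := mem_koszulChain.1 hc
  refine ⟨⟨?_, ?_⟩, koszulD_sq' I c⟩
  · intro s hs
    rw [koszulD_apply]
    refine Finset.sum_eq_zero fun i hi => ?_
    rw [hc1, mul_zero, mul_zero]
    rw [Finset.card_insert_of_notMem (Finset.mem_compl.1 hi)]
    omega
  · intro s
    rw [koszulD_apply]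
    refine Submodule.sum_mem _ fun i hi => sign_mul_mem _ _ ?_
    have h := hc2 (insert i s)
    by_cases h1 : p + 1 ≤ j
    · rw [if_pos h1] at h
      rw [if_pos (by omega)]
      have h2 := X_mul_mem_quotPiece i h
      rwa [show j - (p + 1) + 1 = j - p by omega] at h2
    · rw [if_neg h1, Submodule.mem_bot] at h
      rw [h, mul_zero]
      exact Submodule.zero_mem _

instance finite_quotPiece (I : Ideal (MvPolynomial (Fin n) K)) (d : ℕ) :
    Module.Finite K (quotPiece I d) :=
  Module.Finite.map _ _

theorem finrank_quotPiece (I : Ideal (MvPolynomial (Fin n) K)) (d : ℕ) :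
    finrank K (quotPiece I d) = hilb I d := by
  set f : homogeneousSubmodule (Fin n) K d →ₗ[K] MvPolynomial (Fin n) K ⧸ I :=
    (Ideal.Quotient.mkₐ K I).toLinearMap ∘ₗ (homogeneousSubmodule (Fin n) K d).subtype with hf
  have h1 : LinearMap.range f = quotPiece I d := by
    rw [hf, LinearMap.range_comp, Submodule.range_subtype]
    rfl
  have h2 : LinearMap.ker f = (piece I d).comap (homogeneousSubmodule (Fin n) K d).subtype := by
    ext u
    rw [LinearMap.mem_ker, Submodule.mem_comap]
    constructor
    · intro h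
      exact ⟨Ideal.Quotient.eq_zero_iff_mem.1 h, u.2⟩
    · intro h
      exact Ideal.Quotient.eq_zero_iff_mem.2 h.1
  have h3 := LinearMap.finrank_range_add_finrank_ker f
  rw [h1, h2] at h3
  have h4 : finrank K ((piece I d).comap (homogeneousSubmodule (Fin n) K d).subtype) =
      finrank K (piece I d) :=
    (Submodule.comapSubtypeEquivOfLe (G.piece_le I d)).finrank_eq
  have h5 := G.finrank_piece_add_hilb I d
  omega

/-- the entries allowed in the Koszul chains -/
noncomputable def entry (I : Ideal (MvPolynomial (Fin n) K)) (p j : ℕ) :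
    Submodule K (MvPolynomial (Fin n) K ⧸ I) :=
  if p ≤ j then quotPiece I (j - p) else ⊥

theorem entry_pos (I : Ideal (MvPolynomial (Fin n) K)) {p j : ℕ} (h : p ≤ j) :
    entry I p j = quotPiece I (j - p) := if_pos h

theorem entry_neg (I : Ideal (MvPolynomial (Fin n) K)) {p j : ℕ} (h : ¬ p ≤ j) :
    entry I p j = ⊥ := if_neg h

instance finite_entry (I : Ideal (MvPolynomial (Fin n) K)) (p j : ℕ) :
    Module.Finite K (entry I p j) := by
  by_cases h : p ≤ j
  · rw [entry_pos I h]
    infer_instance
  · rw [entry_neg I h]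
    infer_instance

theorem finrank_entry (I : Ideal (MvPolynomial (Fin n) K)) (p j : ℕ) :
    finrank K (entry I p j) = if p ≤ j then hilb I (j - p) else 0 := by
  by_cases h : p ≤ j
  · rw [entry_pos I h, if_pos h]
    exact finrank_quotPiece I _
  · rw [entry_neg I h, if_neg h]
    exact finrank_bot K _

/-- chains as families indexed by the `p`-element subsets -/
noncomputable def chainEquiv (I : Ideal (MvPolynomial (Fin n) K)) (p j : ℕ) :
    koszulChain I p j ≃ₗ[K] ({s : Finset (Fin n) // s.card = p} → entry I p j) where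
  toFun c := fun s => ⟨c.1 s.1, c.2.2 s.1⟩
  map_add' := by
    intro a b
    rfl
  map_smul' := by
    intro k a
    rfl
  invFun c := ⟨fun s => if h : s.card = p then (c ⟨s, h⟩ : MvPolynomial (Fin n) K ⧸ I) else 0,
    by
      refine ⟨fun s hs => dif_neg hs, fun s => ?_⟩
      by_cases h : s.card = p
      · simp only [h, dif_pos]
        exact (c ⟨s, h⟩).2
      · simp only [h]
        exact Submodule.zero_mem _⟩
  left_inv := by
    intro c
    apply Subtype.ext
    funext s
    by_cases h : s.card = p
    · simp only [h, dif_pos]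
    · simp only [h]
      exact (c.2.1 s h).symm
  right_inv := by
    intro c
    funext s
    apply Subtype.ext
    simp only [s.2, dif_pos]

instance finite_koszulChain (I : Ideal (MvPolynomial (Fin n) K)) (p j : ℕ) :
    Module.Finite K (koszulChain I p j) :=
  Module.Finite.equiv (chainEquiv I p j).symm

theorem finrank_koszulChain (I : Ideal (MvPolynomial (Fin n) K)) (p j : ℕ) :
    finrank K (koszulChain I p j) = n.choose p * if p ≤ j then hilb I (j - p) else 0 := by
  classical
  rw [(chainEquiv I p j).finrank_eq, Module.finrank_pi_fintype]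
  rw [Finset.sum_const, finrank_entry, Finset.card_univ, smul_eq_mul]
  congr 1
  rw [Fintype.card_finset_len, Fintype.card_fin]

instance finite_cycles (I : Ideal (MvPolynomial (Fin n) K)) (p j : ℕ) :
    Module.Finite K ↥(koszulChain I p j ⊓ LinearMap.ker (koszulD I)) :=
  Submodule.finiteDimensional_of_le inf_le_left

instance finite_bd (I : Ideal (MvPolynomial (Fin n) K)) (p j : ℕ) :
    Module.Finite K ((koszulChain I p j).map (koszulD I)) :=
  Module.Finite.map _ _

/-- betti + boundaries = cycles -/
theorem betti_add (I : Ideal (MvPolynomial (Fin n) K)) (p j : ℕ) :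
    betti I p j + finrank K ((koszulChain I (p + 1) j).map (koszulD I)) =
      finrank K ↥(koszulChain I p j ⊓ LinearMap.ker (koszulD I)) := by
  have h1 := Submodule.finrank_quotient_add_finrank
    (((koszulChain I (p + 1) j).map (koszulD I)).comap
      (koszulChain I p j ⊓ LinearMap.ker (koszulD I)).subtype)
  rw [(Submodule.comapSubtypeEquivOfLe (map_koszulD_le' I p j)).finrank_eq] at h1
  exact h1

/-- rank-nullity for the restriction to a submodule -/
theorem finrank_map_add {V V' : Type*} [AddCommGroup V] [Module K V] [AddCommGroup V']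
    [Module K V'] (f : V →ₗ[K] V') (W : Submodule K V) [Module.Finite K W] :
    finrank K (W.map f) + finrank K ↥(W ⊓ LinearMap.ker f) = finrank K W := by
  set g := f.domRestrict W with hg
  have h1 : LinearMap.range g = W.map f := by
    rw [hg, LinearMap.range_domRestrict]
  have h2 : LinearMap.ker g = (W ⊓ LinearMap.ker f).comap W.subtype := by
    ext c
    rw [LinearMap.mem_ker, Submodule.mem_comap]
    constructor
    · intro h
      exact ⟨c.2, h⟩
    · intro h
      exact h.2
  have h3 := LinearMap.finrank_range_add_finrank_ker g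
  rw [h1, h2, (Submodule.comapSubtypeEquivOfLe inf_le_left).finrank_eq] at h3
  exact h3

theorem finrank_map_of_inj {V V' : Type*} [AddCommGroup V] [Module K V] [AddCommGroup V']
    [Module K V'] (f : V →ₗ[K] V') (W : Submodule K V) [Module.Finite K W]
    (h : ∀ w ∈ W, f w = 0 → w = 0) : finrank K (W.map f) = finrank K W := by
  have h1 := finrank_map_add f W
  have h2 : W ⊓ LinearMap.ker f = ⊥ := by
    rw [eq_bot_iff]
    rintro w ⟨h3, h4⟩
    exact (Submodule.mem_bot K).2 (h w h3 h4)
  rw [h2, finrank_bot, add_zero] at h1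
  exact h1

/-- rank-nullity for the differential -/
theorem finrank_cycles_add (I : Ideal (MvPolynomial (Fin n) K)) (p j : ℕ) :
    finrank K ↥(koszulChain I p j ⊓ LinearMap.ker (koszulD I)) +
      finrank K ((koszulChain I p j).map (koszulD I)) = finrank K (koszulChain I p j) := by
  rw [add_comm]
  exact finrank_map_add _ _

end Vale.Agent.P200.B
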