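import Vale.Agent.P200.B.General1

/-! Division operators on polynomials. -/

namespace Vale.Agent.P200.B

open MvPolynomial Module

variable {K : Type*} [Field K] {n : ℕ}

/-- divide by `X a` the monomials whose first variable is `X a`, and drop the others -/
noncomputable def dd (a : Fin n) : MvPolynomial (Fin n) K →ₗ[K] MvPolynomial (Fin n) K :=
  (MvPolynomial.basisMonomials (Fin n) K).constr K fun m =>
    if m a ≠ 0 ∧ ∀ k < a, m k = 0 then monomial (m - Finsupp.single a 1) 1 else 0

/-- keep the monomials not involving the variables in `T` -/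
noncomputable def pp (T : Finset (Fin n)) : MvPolynomial (Fin n) K →ₗ[K] MvPolynomial (Fin n) K :=
  (MvPolynomial.basisMonomials (Fin n) K).constr K fun m =>
    if ∀ k ∈ T, m k = 0 then monomial m 1 else 0

theorem dd_monomial (a : Fin n) (m : Fin n →₀ ℕ) (c : K) :
    dd a (monomial m c) = if m a ≠ 0 ∧ ∀ k < a, m k = 0 then
      monomial (m - Finsupp.single a 1) c else 0 := by
  have h1 : (monomial m c : MvPolynomial (Fin n) K) =
      c • MvPolynomial.basisMonomials (Fin n) K m := by
    rw [MvPolynomial.coe_basisMonomials, smul_monomial, smul_eq_mul, mul_one]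
  rw [h1, dd, map_smul, Basis.constr_basis, smul_ite, smul_zero, smul_monomial, smul_eq_mul,
    mul_one]

theorem pp_monomial (T : Finset (Fin n)) (m : Fin n →₀ ℕ) (c : K) :
    pp T (monomial m c) = if ∀ k ∈ T, m k = 0 then monomial m c else 0 := by
  have h1 : (monomial m c : MvPolynomial (Fin n) K) =
      c • MvPolynomial.basisMonomials (Fin n) K m := by
    rw [MvPolynomial.coe_basisMonomials, smul_monomial, smul_eq_mul, mul_one]
  rw [h1, pp, map_smul, Basis.constr_basis, smul_ite, smul_zero, smul_monomial, smul_eq_mul,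
    mul_one, MvPolynomial.coe_basisMonomials, smul_monomial, smul_eq_mul, mul_one]

theorem sum_dd (T : Finset (Fin n)) (hT : ∀ a ∈ T, ∀ k < a, k ∈ T)
    (g : MvPolynomial (Fin n) K) : ∑ a ∈ T, X a * dd a g + pp T g = g := by
  classical
  induction g using MvPolynomial.induction_on' with
  | monomial m c =>
    by_cases h : ∀ k ∈ T, m k = 0
    · rw [pp_monomial, if_pos h, Finset.sum_eq_zero, zero_add]
      intro a ha
      rw [dd_monomial, if_neg, mul_zero]
      exact fun h' => h'.1 (h a ha)
    · rw [pp_monomial, if_neg h, add_zero]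
      push Not at h
      -- the first variable
      have hne : (T.filter fun k => m k ≠ 0).Nonempty := by
        obtain ⟨k, hk, hk'⟩ := h
        exact ⟨k, Finset.mem_filter.2 ⟨hk, hk'⟩⟩
      set a := (T.filter fun k => m k ≠ 0).min' hne with ha
      have ha1 := Finset.mem_filter.1 (Finset.min'_mem _ hne)
      rw [← ha] at ha1
      have ha2 : ∀ k < a, m k = 0 := by
        intro k hk
        by_contra hk'
        exact absurd (Finset.min'_le _ k (Finset.mem_filter.2 ⟨hT a ha1.1 k hk, hk'⟩))
          (not_le.2 hk)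
      rw [Finset.sum_eq_single a]
      · have hle : Finsupp.single a 1 ≤ m := by
          rw [Finsupp.single_le_iff]
          exact Nat.one_le_iff_ne_zero.2 ha1.2
        rw [dd_monomial, if_pos ⟨ha1.2, ha2⟩, X, monomial_mul, one_mul,
          add_tsub_cancel_of_le hle]
      · intro b _ hb
        rw [dd_monomial, if_neg, mul_zero]
        rintro ⟨h1, h2⟩
        rcases lt_or_gt_of_ne hb with h3 | h3
        · exact h1 (ha2 b h3)
        · exact ha1.2 (h2 a h3)
      · exact fun h' => absurd ha1.1 h'
  | add p q hp hq =>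
    rw [map_add]
    simp only [map_add, mul_add, Finset.sum_add_distrib]
    calc _ = (∑ a ∈ T, X a * dd a p + pp T p) + (∑ a ∈ T, X a * dd a q + pp T q) := by ring
      _ = _ := by rw [hp, hq]

theorem dd_X_mul_of_lt {a b : Fin n} (h : a < b) (g : MvPolynomial (Fin n) K) :
    dd b (X a * g) = 0 := by
  induction g using MvPolynomial.induction_on' with
  | monomial m c =>
    rw [X, monomial_mul, dd_monomial, if_neg]
    rintro ⟨_, h2⟩
    have h3 := h2 a h
    simp at h3
  | add p q hp hq => rw [mul_add, map_add, hp, hq, add_zero]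

theorem dd_X_mul_self (a : Fin n) (g : MvPolynomial (Fin n) K) :
    dd a (X a * g) = pp (Finset.univ.filter fun k => k < a) g := by
  induction g using MvPolynomial.induction_on' with
  | monomial m c =>
    rw [X, monomial_mul, dd_monomial, one_mul, pp_monomial, add_tsub_cancel_left]
    congr 1
    apply propext
    constructor
    · rintro ⟨_, h⟩ k hk
      have hk' := (Finset.mem_filter.1 hk).2
      have h1 := h k hk'
      rw [Finsupp.add_apply] at h1
      omega
    · intro h
      refine ⟨?_, fun k hk => ?_⟩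
      · rw [Finsupp.add_apply, Finsupp.single_eq_same]
        omega
      · rw [Finsupp.add_apply, Finsupp.single_eq_of_ne hk.ne, zero_add]
        exact h k (Finset.mem_filter.2 ⟨Finset.mem_univ k, hk⟩)
  | add p q hp hq => rw [mul_add, map_add, hp, hq, map_add]

theorem dd_X_mul_of_gt {a b : Fin n} (h : b < a) (g : MvPolynomial (Fin n) K) :
    dd b (X a * g) = X a * dd b g := by
  induction g using MvPolynomial.induction_on' with
  | monomial m c =>
    rw [X, monomial_mul, dd_monomial, dd_monomial, one_mul]
    have h1 : ((Finsupp.single a 1 + m : Fin n →₀ ℕ) b ≠ 0 ∧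
        ∀ k < b, (Finsupp.single a 1 + m : Fin n →₀ ℕ) k = 0) ↔
        (m b ≠ 0 ∧ ∀ k < b, m k = 0) := by
      have h2 : ∀ k ≤ b, (Finsupp.single a 1 + m : Fin n →₀ ℕ) k = m k := by
        intro k hk
        rw [Finsupp.add_apply, Finsupp.single_eq_of_ne (hk.trans_lt h).ne, zero_add]
      constructor
      · rintro ⟨h3, h4⟩
        rw [h2 b le_rfl] at h3
        exact ⟨h3, fun k hk => by rw [← h2 k hk.le, h4 k hk]⟩
      · rintro ⟨h3, h4⟩
        rw [h2 b le_rfl]
        exact ⟨h3, fun k hk => by rw [h2 k hk.le, h4 k hk]⟩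
    by_cases h3 : m b ≠ 0 ∧ ∀ k < b, m k = 0
    · rw [if_pos h3, if_pos (h1.2 h3), monomial_mul, one_mul]
      congr 1
      rw [add_tsub_assoc_of_le]
      rw [Finsupp.single_le_iff]
      exact Nat.one_le_iff_ne_zero.2 h3.1
    · rw [if_neg h3, if_neg (fun h => h3 (h1.1 h)), mul_zero]
  | add p q hp hq => rw [mul_add, map_add, hp, hq, map_add, mul_add]

/-- `g` as the sum of its monomials -/
theorem map_sum_monomial (f : MvPolynomial (Fin n) K →ₗ[K] MvPolynomial (Fin n) K)
    (g : MvPolynomial (Fin n) K) : f g = ∑ m ∈ g.support, f (monomial m (coeff m g)) := by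
  rw [← map_sum, MvPolynomial.support_sum_monomial_coeff]

theorem degree_of_mem {g : MvPolynomial (Fin n) K} {j : ℕ} (hg : g.IsHomogeneous j)
    {m : Fin n →₀ ℕ} (hm : m ∈ g.support) : m.degree = j := by
  by_contra h
  exact (mem_support_iff.1 hm) (hg.coeff_eq_zero h)

theorem dd_isHomogeneous (a : Fin n) {g : MvPolynomial (Fin n) K} {j : ℕ}
    (hg : g.IsHomogeneous (j + 1)) : (dd a g).IsHomogeneous j := by
  rw [map_sum_monomial]
  refine IsHomogeneous.sum _ _ _ fun m hm => ?_
  rw [dd_monomial]
  split_ifs with h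
  · refine isHomogeneous_monomial _ ?_
    have h1 := degree_of_mem hg hm
    have h2 : m = (m - Finsupp.single a 1) + Finsupp.single a 1 := by
      rw [tsub_add_cancel_of_le]
      rw [Finsupp.single_le_iff]
      exact Nat.one_le_iff_ne_zero.2 h.1
    rw [h2, map_add, Finsupp.degree_single] at h1
    omega
  · exact isHomogeneous_zero _ _ _

theorem dd_of_isHomogeneous_zero (a : Fin n) {g : MvPolynomial (Fin n) K}
    (hg : g.IsHomogeneous 0) : dd a g = 0 := by
  rw [map_sum_monomial]
  refine Finset.sum_eq_zero fun m hm => ?_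
  rw [dd_monomial, if_neg]
  rintro ⟨h1, _⟩
  have h2 := degree_of_mem hg hm
  rw [Finsupp.degree_eq_zero_iff] at h2
  exact h1 (by rw [h2]; rfl)

theorem pp_univ_of_isHomogeneous {g : MvPolynomial (Fin n) K} {j : ℕ}
    (hg : g.IsHomogeneous (j + 1)) : pp Finset.univ g = 0 := by
  rw [map_sum_monomial]
  refine Finset.sum_eq_zero fun m hm => ?_
  rw [pp_monomial, if_neg]
  intro h
  have h1 := degree_of_mem hg hm
  have h2 : m = 0 := by
    ext k
    exact h k (Finset.mem_univ k)
  rw [h2, map_zero] at h1
  omega

/-- a form of positive degree is a combination of the variables -/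
theorem eq_sum_X_mul_dd {g : MvPolynomial (Fin n) K} {j : ℕ}
    (hg : g.IsHomogeneous (j + 1)) : g = ∑ a, X a * dd a g := by
  have h := sum_dd Finset.univ (fun a _ k _ => Finset.mem_univ k) g
  rw [pp_univ_of_isHomogeneous hg, add_zero] at h
  exact h.symm

/-- exactness of the Koszul complex over the polynomial ring in degree one -/
theorem syz_eq {u : Fin n → MvPolynomial (Fin n) K} (hu : ∑ i, X i * u i = 0) (b : Fin n) :
    u b = ∑ a ∈ Finset.univ.filter (fun k => k < b), X a * dd a (u b) -
      ∑ a ∈ Finset.univ.filter (fun k => b < k), X a * dd b (u a) := by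
  classical
  have h1 := sum_dd (Finset.univ.filter (fun k => k < b)) (by
    intro a ha k hk
    rw [Finset.mem_filter] at ha ⊢
    exact ⟨Finset.mem_univ k, hk.trans ha.2⟩) (u b)
  have h2 : dd b (∑ i, X i * u i) = 0 := by rw [hu, map_zero]
  rw [map_sum] at h2
  have h3 : ∀ i, dd b (X i * u i) = (if b < i then X i * dd b (u i) else 0) +
      (if i = b then pp (Finset.univ.filter fun k => k < b) (u b) else 0) := by
    intro i
    rcases lt_trichotomy i b with h | h | h
    · rw [dd_X_mul_of_lt h, if_neg (not_lt.2 h.le), if_neg h.ne, add_zero]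
    · subst h
      rw [dd_X_mul_self, if_neg (lt_irrefl _), if_pos rfl, zero_add]
    · rw [dd_X_mul_of_gt h, if_pos h, if_neg h.ne', add_zero]
  rw [Finset.sum_congr rfl fun i _ => h3 i, Finset.sum_add_distrib, Finset.sum_ite_eq',
    if_pos (Finset.mem_univ b), ← Finset.sum_filter] at h2
  rw [eq_sub_iff_add_eq, ← sub_eq_zero, ← h2]
  nth_rewrite 1 [← h1]
  ring

end Vale.Agent.P200.B
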