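import Vale.Agent.P200.B.General2

/-! Zeroth Betti number, Euler characteristic. -/

namespace Vale.Agent.P200.B

open MvPolynomial Module

variable {K : Type*} [Field K] {n : ℕ}

theorem koszulChain_eq_bot (I : Ideal (MvPolynomial (Fin n) K)) {p j : ℕ} (h : n < p ∨ j < p) :
    koszulChain I p j = ⊥ := by
  classical
  have h1 := finrank_koszulChain I p j
  have h2 : (n.choose p * if p ≤ j then hilb I (j - p) else 0) = 0 := by
    rcases h with h | h
    · rw [Nat.choose_eq_zero_of_lt h, zero_mul]
    · rw [if_neg (by omega), mul_zero]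
  rw [h2] at h1
  exact Submodule.finrank_eq_zero.1 h1

theorem betti_of_lt' (I : Ideal (MvPolynomial (Fin n) K)) {p j : ℕ} (h : n < p ∨ j < p) :
    betti I p j = 0 := by
  have h1 := betti_add I p j
  have h2 : finrank K ↥(koszulChain I p j ⊓ LinearMap.ker (koszulD I)) = 0 := by
    rw [koszulChain_eq_bot I h, bot_inf_eq]
    exact finrank_bot K _
  omega

/-- `C_0` is killed by the differential -/
theorem koszulD_zero_chain {I : Ideal (MvPolynomial (Fin n) K)} {j : ℕ}
    {c : Finset (Fin n) → MvPolynomial (Fin n) K ⧸ I} (hc : c ∈ koszulChain I 0 j) :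
    koszulD I c = 0 := by
  classical
  funext t
  rw [koszulD_apply, Pi.zero_apply]
  refine Finset.sum_eq_zero fun i _ => ?_
  rw [hc.1, mul_zero, mul_zero]
  rw [Finset.card_ne_zero]
  exact Finset.insert_nonempty _ _

theorem map_zero_chain (I : Ideal (MvPolynomial (Fin n) K)) (j : ℕ) :
    (koszulChain I 0 j).map (koszulD I) = ⊥ := by
  rw [eq_bot_iff]
  rintro _ ⟨c, hc, rfl⟩
  exact (Submodule.mem_bot K).2 (koszulD_zero_chain hc)

theorem betti_euler' (I : Ideal (MvPolynomial (Fin n) K)) (j : ℕ) :
    ∑ p ∈ Finset.range (n + 1), (-1 : ℤ) ^ p * betti I p j =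
      ∑ p ∈ Finset.range (n + 1), (-1 : ℤ) ^ p * (n.choose p) *
        (if p ≤ j then (hilb I (j - p) : ℤ) else 0) := by
  set r : ℕ → ℤ := fun p => (finrank K ((koszulChain I p j).map (koszulD I)) : ℤ) with hr
  have h0 : r 0 = 0 := by
    rw [hr]
    simp only
    rw [map_zero_chain, finrank_bot]
    rfl
  have hn : r (n + 1) = 0 := by
    rw [hr]
    simp only
    rw [koszulChain_eq_bot I (Or.inl (Nat.lt_succ_self n)), Submodule.map_bot, finrank_bot]
    rfl
  have h1 : ∀ p, (betti I p j : ℤ) = ((n.choose p) *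
      (if p ≤ j then (hilb I (j - p) : ℤ) else 0)) - r p - r (p + 1) := by
    intro p
    have e1 := betti_add I p j
    have e2 := finrank_cycles_add I p j
    rw [finrank_koszulChain] at e2
    have e3 : ((n.choose p * if p ≤ j then hilb I (j - p) else 0 : ℕ) : ℤ) =
        (n.choose p) * (if p ≤ j then (hilb I (j - p) : ℤ) else 0) := by
      push_cast
      rfl
    rw [← e3, hr]
    simp only
    omega
  have h2 : ∀ m, ∑ p ∈ Finset.range m, (-1 : ℤ) ^ p * (r p + r (p + 1)) =
      r 0 - (-1) ^ m * r m := by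
    intro m
    induction m with
    | zero => simp
    | succ m ih =>
      rw [Finset.sum_range_succ, ih]
      ring
  have h3 := h2 (n + 1)
  rw [h0, hn, mul_zero, sub_zero] at h3
  have h4 : ∀ p ∈ Finset.range (n + 1), (-1 : ℤ) ^ p * betti I p j =
      (-1 : ℤ) ^ p * (n.choose p) * (if p ≤ j then (hilb I (j - p) : ℤ) else 0) -
        (-1 : ℤ) ^ p * (r p + r (p + 1)) := by
    intro p _
    rw [h1]
    generalize (if p ≤ j then (hilb I (j - p) : ℤ) else 0) = x
    ring
  rw [Finset.sum_congr rfl h4, Finset.sum_sub_distrib, h3, sub_zero]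

/-- evaluation of the boundaries in `C_0` at the empty set -/
theorem finrank_C0_bd (I : Ideal (MvPolynomial (Fin n) K)) (j : ℕ) :
    finrank K ((koszulChain I 1 (j + 1)).map (koszulD I)) = hilb I (j + 1) := by
  classical
  set ev : (Finset (Fin n) → MvPolynomial (Fin n) K ⧸ I) →ₗ[K] MvPolynomial (Fin n) K ⧸ I :=
    LinearMap.proj ∅ with hev
  have h0 : ∀ c ∈ koszulChain I 0 (j + 1), ev c = 0 → c = 0 := by
    intro c hc h
    funext s
    by_cases hs : s = ∅
    · rw [hs]
      exact h
    · exact hc.1 s (fun h => hs (Finset.card_eq_zero.1 h))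
  have hle := (map_koszulD_le' I 0 (j + 1)).trans inf_le_left
  have h1 : finrank K (((koszulChain I 1 (j + 1)).map (koszulD I)).map ev) =
      finrank K ((koszulChain I 1 (j + 1)).map (koszulD I)) :=
    finrank_map_of_inj _ _ fun w hw => h0 w (hle hw)
  have h2 : ((koszulChain I 1 (j + 1)).map (koszulD I)).map ev = quotPiece I (j + 1) := by
    apply le_antisymm
    · rintro _ ⟨c, hc, rfl⟩
      have h3 := (hle hc).2 ∅
      rw [if_pos (Nat.zero_le _)] at h3
      exact h3
    · intro x hx
      obtain ⟨u, hu, rfl⟩ := mem_quotPiece.1 hx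
      -- write `u` as a combination of the variables
      obtain ⟨v, hv, huv⟩ : ∃ v : Fin n → MvPolynomial (Fin n) K,
          (∀ i, (v i).IsHomogeneous j) ∧ u = ∑ i, X i * v i :=
        ⟨fun a => dd a u, fun a => dd_isHomogeneous a hu, eq_sum_X_mul_dd hu⟩
      refine ⟨_, ⟨fun s => if h : ∃ i, s = {i} then Ideal.Quotient.mk I (v h.choose) else 0,
        ⟨?_, ?_⟩, rfl⟩, ?_⟩
      · intro s hs
        simp only
        rw [dif_neg]
        rintro ⟨i, rfl⟩
        exact hs (Finset.card_singleton i)
      · intro s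
        rw [if_pos (by omega), Nat.add_sub_cancel]
        simp only
        split_ifs with h
        · exact mem_quotPiece.2 ⟨_, hv _, rfl⟩
        · exact Submodule.zero_mem _
      · have h3 : ∀ i : Fin n, (if h : ∃ i', ({i} : Finset (Fin n)) = {i'} then
            Ideal.Quotient.mk I (v h.choose) else 0) = Ideal.Quotient.mk I (v i) := by
          intro i
          have h4 : ∃ i', ({i} : Finset (Fin n)) = {i'} := ⟨i, rfl⟩
          rw [dif_pos h4]
          have h5 := h4.choose_spec
          rw [Finset.singleton_inj] at h5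
          rw [← h5]
        rw [hev, LinearMap.proj_apply, koszulD_apply, huv, map_sum]
        rw [Finset.compl_empty]
        refine Finset.sum_congr rfl fun i _ => ?_
        rw [Finset.filter_empty, Finset.card_empty, pow_zero, one_mul, insert_empty_eq, h3,
          map_mul]
  rw [← h1, h2, finrank_quotPiece]

theorem betti_zero' (I : Ideal (MvPolynomial (Fin n) K)) (j : ℕ) :
    betti I 0 j = if j = 0 then hilb I 0 else 0 := by
  have h1 := betti_add I 0 j
  have h2 : koszulChain I 0 j ⊓ LinearMap.ker (koszulD I) = koszulChain I 0 j :=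
    inf_eq_left.2 fun c hc => koszulD_zero_chain hc
  rw [h2, finrank_koszulChain, Nat.choose_zero_right, one_mul, if_pos (Nat.zero_le j),
    Nat.sub_zero] at h1
  cases j with
  | zero =>
    rw [if_pos rfl]
    rw [koszulChain_eq_bot I (Or.inr (by omega)), Submodule.map_bot, finrank_bot, add_zero] at h1
    exact h1
  | succ j =>
    rw [if_neg (by omega)]
    rw [zero_add, finrank_C0_bd] at h1
    omega

/-- the top homology -/
theorem betti_top_aux (I : Ideal (MvPolynomial (Fin n) K)) (j : ℕ)
    (W : Submodule K (MvPolynomial (Fin n) K))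
    (hW : ∀ u, u ∈ W ↔ u.IsHomogeneous j ∧ ∀ i, X i * u ∈ I) :
    betti I n (j + n) + finrank K (piece I j) = finrank K W := by
  classical
  have h1 := betti_add I n (j + n)
  rw [koszulChain_eq_bot I (Or.inl (Nat.lt_succ_self n)), Submodule.map_bot, finrank_bot,
    add_zero] at h1
  set ev : (Finset (Fin n) → MvPolynomial (Fin n) K ⧸ I) →ₗ[K] MvPolynomial (Fin n) K ⧸ I :=
    LinearMap.proj Finset.univ with hev
  have h0 : ∀ c ∈ koszulChain I n (j + n), ev c = 0 → c = 0 := by
    intro c hc h
    funext s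
    by_cases hs : s = Finset.univ
    · rw [hs]
      exact h
    · refine hc.1 s (fun h => hs ?_)
      rw [← Finset.card_eq_iff_eq_univ, h, Fintype.card_fin]
  have h2 : finrank K ((koszulChain I n (j + n) ⊓ LinearMap.ker (koszulD I)).map ev) =
      finrank K ↥(koszulChain I n (j + n) ⊓ LinearMap.ker (koszulD I)) :=
    finrank_map_of_inj _ _ fun w hw => h0 w hw.1
  have h3 : (koszulChain I n (j + n) ⊓ LinearMap.ker (koszulD I)).map ev =
      W.map (Ideal.Quotient.mkₐ K I).toLinearMap := by
    apply le_antisymm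
    · rintro _ ⟨c, ⟨hc1, hc2⟩, rfl⟩
      have h4 := hc1.2 Finset.univ
      rw [if_pos (by omega), Nat.add_sub_cancel] at h4
      obtain ⟨u, hu, hu'⟩ := mem_quotPiece.1 h4
      refine ⟨u, (hW u).2 ⟨hu, fun i => ?_⟩, hu'⟩
      have h5 : koszulD I c ({i}ᶜ) = 0 := by
        rw [LinearMap.mem_ker.1 hc2]
        rfl
      rw [koszulD_apply, compl_compl, Finset.sum_singleton, Finset.insert_compl_self, ← hu',
        ← map_mul] at h5
      rw [← Ideal.Quotient.eq_zero_iff_mem]
      rcases neg_one_pow_eq_or (MvPolynomial (Fin n) K ⧸ I)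
        (({i}ᶜ : Finset (Fin n)).filter fun k => k < i).card with h | h
      · rw [h, one_mul] at h5
        exact h5
      · rw [h, neg_one_mul, neg_eq_zero] at h5
        exact h5
    · rintro _ ⟨u, hu, rfl⟩
      obtain ⟨hu1, hu2⟩ := (hW u).1 hu
      refine ⟨fun s => if s = Finset.univ then Ideal.Quotient.mk I u else 0, ⟨⟨?_, ?_⟩, ?_⟩, ?_⟩
      · intro s hs
        refine if_neg fun h => hs ?_
        rw [h, Finset.card_univ, Fintype.card_fin]
      · intro s
        rw [if_pos (by omega), Nat.add_sub_cancel]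
        simp only
        split_ifs with h
        · exact mem_quotPiece.2 ⟨u, hu1, rfl⟩
        · exact Submodule.zero_mem _
      · refine LinearMap.mem_ker.2 ?_
        funext t
        rw [koszulD_apply]
        refine Finset.sum_eq_zero fun i _ => ?_
        split_ifs with h
        · rw [← map_mul, Ideal.Quotient.eq_zero_iff_mem.2 (hu2 i), mul_zero]
        · rw [mul_zero, mul_zero]
      · exact if_pos rfl
  have hWle : W ≤ homogeneousSubmodule (Fin n) K j := fun u hu => ((hW u).1 hu).1
  have : Module.Finite K W := Submodule.finiteDimensional_of_le hWle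
  have h4 := finrank_map_add (Ideal.Quotient.mkₐ K I).toLinearMap W
  have h5 : W ⊓ LinearMap.ker (Ideal.Quotient.mkₐ K I).toLinearMap = piece I j := by
    ext u
    rw [G.mem_piece]
    constructor
    · rintro ⟨h6, h7⟩
      exact ⟨Ideal.Quotient.eq_zero_iff_mem.1 h7, ((hW u).1 h6).1⟩
    · rintro ⟨h6, h7⟩
      exact ⟨(hW u).2 ⟨h7, fun i => I.mul_mem_left _ h6⟩, Ideal.Quotient.eq_zero_iff_mem.2 h6⟩
  rw [h5, ← h3, h2, ← h1] at h4
  exact h4

end Vale.Agent.P200.B
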