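import Vale.Agent.P200.FDefs
import Vale.Agent.P200.G.CAReg
import Vale.Agent.P200.G.Final

/-! Dimensions of the ideals `(f)`, `P` and of the lex-plus-powers ideal. -/

namespace Vale.Agent.P200.B

open MvPolynomial Module
open Vale.Agent.P200.G

variable {K : Type*} [Field K] {n c : ℕ}

/-- the Hilbert function of `S / (f_i : i < k)` -/
theorem hilb_span_first (h : c ≤ n) (a : Fin c → ℕ)
    (f : Fin c → MvPolynomial (Fin n) K) (hf : ∀ i, (f i).IsHomogeneous (a i))
    (hreg : IsRegularSeq f) (k : ℕ) (hk : k ≤ c) (d : ℕ) :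
    hilb (Ideal.span (f '' {j | j.1 < k})) d =
      (boxT (extDeg h a 0) (Finset.univ.filter fun i : Fin n => i.1 < k) d).card := by
  classical
  induction k generalizing d with
  | zero =>
    have e1 : (f '' {j | j.1 < 0}) = ∅ := by
      rw [Set.image_eq_empty]
      ext j
      simp
    have e2 : (Finset.univ.filter fun i : Fin n => i.1 < 0) = ∅ := by
      ext j
      simp
    rw [e1, e2, card_boxT_empty, ← finrank_homogeneousSubmodule (K := K), Ideal.span_empty]
    have h := finrank_piece_add_hilb (K := K) (n := n) ⊥ d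
    rw [← h]
    have h0 : piece (⊥ : Ideal (MvPolynomial (Fin n) K)) d = ⊥ := by
      unfold piece
      ext x; simp
    rw [h0, finrank_bot, zero_add]
  | succ k ih =>
    have ih := fun d => ih (by omega) d
    have hhom : HomIdeal (Ideal.span (f '' {j | j.1 < k})) := by
      refine homIdeal_span ?_
      rintro _ ⟨i, _, rfl⟩
      exact ⟨a i, hf i⟩
    have e1 : {j : Fin c | j.1 < k + 1} = insert ⟨k, hk⟩ {j : Fin c | j.1 < k} := by
      ext j
      rw [Set.mem_insert_iff, Set.mem_ofPred_eq, Set.mem_ofPred_eq, Fin.ext_iff]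
      simp only
      omega
    have e2 : (Finset.univ.filter fun i : Fin n => i.1 < k + 1) =
        insert ⟨k, by omega⟩ (Finset.univ.filter fun i : Fin n => i.1 < k) := by
      ext j
      simp only [Finset.mem_filter, Finset.mem_univ, true_and, Finset.mem_insert, Fin.ext_iff]
      omega
    have hnot : (⟨k, by omega⟩ : Fin n) ∉ (Finset.univ.filter fun i : Fin n => i.1 < k) := by
      simp
    have hA : extDeg h a 0 ⟨k, by omega⟩ = a ⟨k, hk⟩ := extDeg_castLE h a 0 ⟨k, hk⟩
    rw [e1, e2, span_image_insert]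
    rcases lt_or_ge d (a ⟨k, hk⟩) with hd | hd
    · rw [hilb_sup_span_of_lt hhom (hf _) hd, ih, card_boxT_insert_of_lt _ _ _ (by rw [hA]; exact hd)]
    · obtain ⟨d, rfl⟩ := Nat.exists_eq_add_of_le' hd
      have h1 := hilb_exact hhom (hf ⟨k, hk⟩) d
      have h2 : colonBy (Ideal.span (f '' {j | j.1 < k})) (f ⟨k, hk⟩) =
          Ideal.span (f '' {j | j.1 < k}) := by
        ext g
        rw [mem_colonBy]
        exact ⟨hreg ⟨k, hk⟩ g, fun hg => Ideal.mul_mem_left _ _ hg⟩
      have h3 := card_boxT_insert (extDeg h a 0) (Finset.univ.filter fun i : Fin n => i.1 < k) hnot d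
      rw [hA] at h3
      rw [h2, ih, ih, h3] at h1
      omega

theorem mem_outside_iff_boxT (h : c ≤ n) (a : Fin c → ℕ) (d : ℕ) (m : Fin n →₀ ℕ) :
    m ∈ outside h a d ↔
      (m : Fin n → ℕ) ∈ boxT (extDeg h a 0) (Finset.univ.filter fun i : Fin n => i.1 < c) d := by
  rw [mem_boxT]
  constructor
  · rintro ⟨h1, h2⟩
    refine ⟨h2, fun i hi => ?_⟩
    rw [Finset.mem_filter] at hi
    have := h1 ⟨i.1, hi.2⟩
    rw [← extDeg_castLE h a 0] at this
    exact this
  · rintro ⟨h1, h2⟩
    refine ⟨fun i => ?_, h1⟩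
    have := h2 (Fin.castLE h i) (by simp)
    rwa [extDeg_castLE] at this

theorem hilb_span_regular (h : c ≤ n) (a : Fin c → ℕ)
    (f : Fin c → MvPolynomial (Fin n) K) (hf : ∀ i, (f i).IsHomogeneous (a i))
    (hreg : IsRegularSeq f) (d : ℕ) :
    hilb (Ideal.span (Set.range f)) d = (outside h a d).ncard := by
  have h1 := hilb_span_first h a f hf hreg c le_rfl d
  have h2 : f '' {j | j.1 < c} = Set.range f := by
    rw [← Set.image_univ]
    congr 1
    ext j
    simp
  rw [h2] at h1
  rw [h1, ncard_eq_card_of_iff fun m => mem_outside_iff_boxT h a d m]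

/-- `dim (f)_d = dim P_d` for a homogeneous regular sequence -/
theorem finrank_powerIdeal (h : c ≤ n) (a : Fin c → ℕ) (hpos : ∀ i, 1 ≤ a i)
    (f : Fin c → MvPolynomial (Fin n) K) (hf : ∀ i, (f i).IsHomogeneous (a i))
    (hreg : IsRegularSeq f) (d : ℕ) :
    finrank K (degPart (powerIdeal K h a) d) = finrank K (degPart (Ideal.span (Set.range f)) d)
      := by
  have h1 := finrank_homogeneous_eq (K := K) h a d
  have h2 := finrank_piece_add_hilb (Ideal.span (Set.range f)) d
  have h3 := hilb_span_regular h a f hf hreg d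
  have h4 : degPart (Ideal.span (Set.range f)) d = piece (Ideal.span (Set.range f)) d := rfl
  rw [h4]
  omega

/-- exponents of degree `d` of `P` together with the `q` greatest ones outside `P` -/
def lexSet (h : c ≤ n) (a : Fin c → ℕ) (d q : ℕ) : Set (Fin n →₀ ℕ) :=
  insideP h a d ∪
    {e | e ∈ outside h a d ∧ {e' | e' ∈ outside h a d ∧ lexGT e' e}.ncard < q}

theorem lexSet_finite (h : c ≤ n) (a : Fin c → ℕ) (d q : ℕ) : (lexSet h a d q).Finite :=
  (finite_degree_eq d).subset (by
    rintro m (hm | hm)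
    · exact hm.2
    · exact hm.1.2)

theorem lexSet_mono (h : c ≤ n) (a : Fin c → ℕ) (d : ℕ) {q q' : ℕ} (hq : q ≤ q') :
    lexSet h a d q ⊆ lexSet h a d q' := by
  rintro m (hm | hm)
  · exact Or.inl hm
  · exact Or.inr ⟨hm.1, hm.2.trans_le hq⟩

theorem lexPart_eq (h : c ≤ n) (a : Fin c → ℕ) (I : Ideal (MvPolynomial (Fin n) K)) (d : ℕ) :
    lexPart h a I d = restrictSupport K (lexSet h a d (qdim h a I d)) := by
  rw [lexPart, degPart_powerIdeal, restrictSupport_eq_span, restrictSupport_eq_span,
    ← Submodule.span_union, ← Set.image_union]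
  rfl

theorem ncard_lexSet (h : c ≤ n) (a : Fin c → ℕ) (d q : ℕ) :
    (lexSet h a d q).ncard = (insideP h a d).ncard + min q (outside h a d).ncard := by
  have hin : (insideP h a d).Finite := (finite_degree_eq d).subset fun _ hm => hm.2
  have hout : {e | e ∈ outside h a d ∧ {e' | e' ∈ outside h a d ∧ lexGT e' e}.ncard < q}.Finite :=
    (finite_degree_eq d).subset fun _ hm => hm.1.2
  rw [lexSet, Set.ncard_union_eq _ hin hout]
  · congr 1
    have h1 : (outside h a d).ncard = (boxD (extDeg h a (d + 1)) d).card :=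
      ncard_eq_card_of_iff fun m => mem_outside_iff h a (Nat.lt_succ_self d) m
    rw [h1, ← card_lexSeg]
    apply ncard_eq_card_of_iff
    intro m
    rw [mem_lexSeg, Set.mem_ofPred_eq, mem_outside_iff h a (Nat.lt_succ_self d),
      ncard_larger h a (Nat.lt_succ_self d)]
  · rw [Set.disjoint_left]
    rintro m ⟨⟨i, hi⟩, -⟩ ⟨⟨h2, -⟩, -⟩
    exact absurd (h2 i) (not_lt.mpr hi)

theorem finrank_lexPart (h : c ≤ n) (a : Fin c → ℕ) (I : Ideal (MvPolynomial (Fin n) K)) (d : ℕ) :
    finrank K (lexPart h a I d) =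
      finrank K (degPart (powerIdeal K h a) d) + min (qdim h a I d) (outside h a d).ncard := by
  rw [lexPart_eq, finrank_restrictSupport _ (lexSet_finite _ _ _ _), ncard_lexSet,
    degPart_powerIdeal, finrank_restrictSupport _ ((finite_degree_eq d).subset fun _ hm => hm.2)]

theorem lppSet_inter (h : c ≤ n) (a : Fin c → ℕ) (I : Ideal (MvPolynomial (Fin n) K)) (d : ℕ) :
    lppSet K h a I ∩ {m | ∑ i, m i = d} = lexSet h a d (qdim h a I d) := by
  ext m
  constructor
  · rintro ⟨hm, hd⟩
    have hd' : ∑ i, m i = d := hd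
    subst hd'
    rcases hm with hm | hm
    · exact Or.inl ⟨hm, rfl⟩
    · exact Or.inr hm
  · rintro (hm | hm)
    · exact ⟨Or.inl hm.1, hm.2⟩
    · have hd' : ∑ i, m i = d := hm.1.2
      subst hd'
      exact ⟨Or.inr hm, rfl⟩

/-- `J` is homogeneous with the same Hilbert function as `I` -/
theorem lexPlusPowers_spec (h : c ≤ n) (a : Fin c → ℕ) (hpos : ∀ i, 1 ≤ a i)
    (f : Fin c → MvPolynomial (Fin n) K) (hf : ∀ i, (f i).IsHomogeneous (a i))
    (hreg : IsRegularSeq f) (I : Ideal (MvPolynomial (Fin n) K)) (hI : HomIdeal I)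
    (hfI : ∀ i, f i ∈ I) (J : Ideal (MvPolynomial (Fin n) K))
    (hJ : J.restrictScalars K = lexPlusPowers h a I) :
    HomIdeal J ∧ (∀ d, piece J d = lexPart h a I d) ∧
      ∀ d, finrank K (piece J d) = finrank K (piece I d) := by
  have hmem : ∀ g, g ∈ J ↔ g ∈ restrictSupport K (lppSet K h a I) := by
    intro g
    rw [← lexPlusPowers_eq, ← hJ]
    rfl
  have hpiece : ∀ d, piece J d = lexPart h a I d := by
    intro d
    rw [lexPart_eq, ← lppSet_inter]
    ext g
    rw [mem_piece, hmem, isHomogeneous_iff_support, mem_restrictSupport_iff,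
      mem_restrictSupport_iff, Set.subset_inter_iff]
    rfl
  refine ⟨?_, hpiece, ?_⟩
  · intro g hg d
    rw [hmem, mem_restrictSupport_iff] at hg ⊢
    refine Set.Subset.trans ?_ hg
    intro m hm
    rw [Finset.mem_coe, MvPolynomial.mem_support_iff, coeff_homogeneousComponent] at hm
    rw [Finset.mem_coe, MvPolynomial.mem_support_iff]
    intro h0
    rw [h0] at hm
    simp at hm
  · intro d
    rw [hpiece, finrank_lexPart]
    have h1 := finrank_homogeneous_eq (K := K) h a d
    have h2 := finrank_powerIdeal h a hpos f hf hreg d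
    have h3 : finrank K (degPart (Ideal.span (Set.range f)) d) ≤ finrank K (piece I d) := by
      have hle : Ideal.span (Set.range f) ≤ I := by
        rw [Ideal.span_le]
        rintro _ ⟨i, rfl⟩
        exact hfI i
      exact Submodule.finrank_mono (piece_mono hle d)
    have h4 : finrank K (piece I d) ≤ finrank K (homogeneousSubmodule (Fin n) K d) :=
      Submodule.finrank_mono (piece_le I d)
    have h5 : qdim h a I d = finrank K (piece I d) - finrank K (degPart (powerIdeal K h a) d) := rfl
    rw [h5]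
    omega

end Vale.Agent.P200.B
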