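import Vale.Agent.P200.B.General
import Vale.Agent.P200.B.Lpp1

/-! The lex-plus-powers inequalities for the first and the last Betti numbers from the
Eisenbud-Green-Harris property, and all of them for `n ≤ 3`. -/

namespace Vale.Agent.P200.B

open MvPolynomial Module
open Vale.Agent.P200.G

variable {K : Type*} [Field K] {n c : ℕ}

/-- the Eisenbud-Green-Harris property of a sequence of forms -/
def EGHfor (h : c ≤ n) (a : Fin c → ℕ) (f : Fin c → MvPolynomial (Fin n) K) : Prop :=
  ∀ I : Ideal (MvPolynomial (Fin n) K), HomIdeal I → (∀ i, f i ∈ I) →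
    ∃ J : Ideal (MvPolynomial (Fin n) K), J.restrictScalars K = lexPlusPowers h a I

/-- components of the elements of an ideal, from those of the multiples of the generators -/
theorem comp_mem_of_span {s : Set (MvPolynomial (Fin n) K)} {d : ℕ}
    {W : Submodule K (MvPolynomial (Fin n) K)}
    (H : ∀ x ∈ s, ∀ w, homogeneousComponent d (w * x) ∈ W) {v : MvPolynomial (Fin n) K}
    (hv : v ∈ Ideal.span s) : homogeneousComponent d v ∈ W := by
  refine Submodule.span_induction (p := fun v _ => ∀ w, homogeneousComponent d (w * v) ∈ W)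
      ?_ ?_ ?_ ?_ hv 1 |> fun h1 => by rwa [one_mul] at h1
  · exact H
  · intro w
    rw [mul_zero, map_zero]
    exact W.zero_mem
  · intro x y _ _ hx hy w
    rw [mul_add, map_add]
    exact W.add_mem (hx w) (hy w)
  · intro b x _ hx w
    rw [smul_eq_mul, ← mul_assoc]
    exact hx _

theorem piece_span_le {s : Set (MvPolynomial (Fin n) K)} {d : ℕ}
    {W : Submodule K (MvPolynomial (Fin n) K)}
    (H : ∀ x ∈ s, ∀ w, homogeneousComponent d (w * x) ∈ W) : piece (Ideal.span s) d ≤ W := by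
  intro g hg
  rw [← comp_self hg.2]
  exact comp_mem_of_span H hg.1

theorem comp_zero_mul (w : MvPolynomial (Fin n) K) {u : MvPolynomial (Fin n) K} {d : ℕ}
    (hu : u.IsHomogeneous d) : homogeneousComponent d (w * u) = coeff 0 w • u := by
  have h1 := comp_mul_add hu w 0
  rw [zero_add, homogeneousComponent_zero, mul_comm, mul_comm u, ← smul_eq_C_mul] at h1
  exact h1

/-- `S_1 W` contains all products of a form of positive degree with `u` -/
theorem mul_mem_shd {I : Ideal (MvPolynomial (Fin n) K)} {d e : ℕ}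
    {w u : MvPolynomial (Fin n) K} (hw : w.IsHomogeneous (d + 1)) (hu : u.IsHomogeneous e)
    (huI : u ∈ I) : w * u ∈ shd (piece I (d + e)) := by
  rw [w.as_sum, Finset.sum_mul]
  refine Submodule.sum_mem _ fun m hm => ?_
  have hdeg : ∑ i, m i = d + 1 := isHomogeneous_iff_support.mp hw m hm
  obtain ⟨i, -, hi⟩ : ∃ i ∈ (Finset.univ : Finset (Fin n)), 0 < m i := by
    apply Finset.exists_lt_of_sum_lt
    simp [hdeg]
  have h1 : monomial m (coeff m w) = X i * monomial (m - Finsupp.single i 1) (coeff m w) := by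
    rw [X, monomial_mul, one_mul, add_tsub_cancel_of_le (Finsupp.single_le_iff.2 hi)]
  rw [h1, mul_assoc]
  refine Submodule.mem_iSup_of_mem i ⟨_, ⟨I.mul_mem_left _ huI, ?_⟩, rfl⟩
  refine IsHomogeneous.mul ?_ hu
  apply isHomogeneous_monomial
  rw [Finsupp.degree_eq_sum]
  have h2 : ∑ j, (m - Finsupp.single i 1 : Fin n →₀ ℕ) j + 1 = d + 1 := by
    rw [← hdeg]
    have h3 : m = (m - Finsupp.single i 1) + Finsupp.single i 1 :=
      (tsub_add_cancel_of_le (Finsupp.single_le_iff.2 hi)).symm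
    conv_rhs => rw [h3]
    simp only [Finsupp.add_apply, Finset.sum_add_distrib]
    congr 1
    rw [Finset.sum_eq_single i]
    · simp
    · intro j _ hj
      rw [Finsupp.single_eq_of_ne hj]
    · intro hi
      exact absurd (Finset.mem_univ i) hi
  omega

theorem shd_piece_le (I : Ideal (MvPolynomial (Fin n) K)) (j : ℕ) :
    shd (piece I j) ≤ piece I (j + 1) := by
  apply iSup_le
  rintro i _ ⟨u, hu, rfl⟩
  refine ⟨I.mul_mem_left _ hu.1, ?_⟩
  rw [add_comm]
  exact (isHomogeneous_X K i).mul hu.2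

/-- the truncated sequence is regular -/
theorem regular_castLE {f : Fin c → MvPolynomial (Fin n) K} (hreg : IsRegularSeq f) {c' : ℕ}
    (h' : c' ≤ c) : IsRegularSeq fun i : Fin c' => f (Fin.castLE h' i) := by
  intro i g hg
  have e : (fun i : Fin c' => f (Fin.castLE h' i)) '' {j | j < i} =
      f '' {j | j < Fin.castLE h' i} := by
    ext x
    constructor
    · rintro ⟨j, hj, rfl⟩
      exact ⟨Fin.castLE h' j, hj, rfl⟩
    · rintro ⟨j, hj, rfl⟩
      have hj' : j.1 < i.1 := hj
      exact ⟨⟨j.1, by omega⟩, hj', rfl⟩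
  rw [e] at hg ⊢
  exact hreg _ g hg

/-- minimal growth: `dim S_1 J_j ≤ dim S_1 I_j` -/
theorem shd_le (h : c ≤ n) (a : Fin c → ℕ) (ha : Monotone a) (hpos : ∀ i, 1 ≤ a i)
    (f : Fin c → MvPolynomial (Fin n) K) (hf : ∀ i, (f i).IsHomogeneous (a i))
    (hreg : IsRegularSeq f)
    (hE : ∀ (c' : ℕ) (h' : c' ≤ c), EGHfor (h'.trans h) (fun i : Fin c' => a (Fin.castLE h' i))
      (fun i : Fin c' => f (Fin.castLE h' i)))
    (I : Ideal (MvPolynomial (Fin n) K)) (hI : HomIdeal I)
    (hfI : ∀ i, f i ∈ I) (J : Ideal (MvPolynomial (Fin n) K))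
    (hJ : J.restrictScalars K = lexPlusPowers h a I) (j : ℕ) :
    finrank K (shd (piece J j)) ≤ finrank K (shd (piece I j)) := by
  classical
  obtain ⟨-, hJ2, -⟩ := lexPlusPowers_spec h a hpos f hf hreg I hI hfI J hJ
  -- the number of generators of degree at most `j`
  obtain ⟨c', h', hc'⟩ : ∃ (c' : ℕ) (_ : c' ≤ c), ∀ i : Fin c, i.1 < c' ↔ a i ≤ j := by
    by_cases hall : ∀ i, a i ≤ j
    · exact ⟨c, le_rfl, fun i => ⟨fun _ => hall i, fun _ => i.2⟩⟩
    · push Not at hall
      obtain ⟨i0, hi0⟩ := hall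
      have hex : ∃ k, ∃ hk : k < c, j < a ⟨k, hk⟩ := ⟨i0.1, i0.2, hi0⟩
      refine ⟨Nat.find hex, ?_, fun i => ?_⟩
      · obtain ⟨hk, -⟩ := Nat.find_spec hex
        exact hk.le
      · obtain ⟨hk, hk2⟩ := Nat.find_spec hex
        constructor
        · intro hi
          by_contra hcon
          exact Nat.find_min hex hi ⟨i.2, not_le.mp hcon⟩
        · intro hi
          by_contra hcon
          have h3 : a ⟨Nat.find hex, hk⟩ ≤ a i := ha (not_lt.mp hcon)
          omega
  set s : Set (MvPolynomial (Fin n) K) := {g | g ∈ I ∧ ∃ e, e ≤ j ∧ g.IsHomogeneous e} with hs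
  set I' : Ideal (MvPolynomial (Fin n) K) := Ideal.span s with hI'
  have hI'hom : HomIdeal I' := homIdeal_span fun g hg => by
    obtain ⟨-, e, -, he⟩ := hg
    exact ⟨e, he⟩
  have hI'le : I' ≤ I := by
    rw [hI', Ideal.span_le]
    exact fun g hg => hg.1
  have hfI' : ∀ i : Fin c', f (Fin.castLE h' i) ∈ I' := by
    intro i
    apply Ideal.subset_span
    exact ⟨hfI _, _, (hc' _).mp i.2, hf _⟩
  have hpj : piece I' j = piece I j := by
    apply le_antisymm (piece_mono hI'le j)
    intro g hg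
    exact ⟨Ideal.subset_span ⟨hg.1, j, le_rfl, hg.2⟩, hg.2⟩
  have hpj1 : piece I' (j + 1) ≤ shd (piece I j) := by
    apply piece_span_le
    rintro x ⟨hxI, e, he, hx⟩ w
    obtain ⟨k, rfl⟩ := Nat.exists_eq_add_of_le' he
    have h1 := comp_mul_add hx w (k + 1)
    rw [show k + e + 1 = k + 1 + e by omega, mul_comm w x, h1, mul_comm]
    exact mul_mem_shd (homogeneousComponent_isHomogeneous _ _) hx hxI
  obtain ⟨J', hJ'⟩ := hE c' h' I' hI'hom hfI'
  obtain ⟨-, hJ'2, hJ'3⟩ := lexPlusPowers_spec (h'.trans h) (fun i : Fin c' => a (Fin.castLE h' i))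
    (fun i => hpos _) (fun i : Fin c' => f (Fin.castLE h' i)) (fun i => hf _)
    (regular_castLE hreg h') I' hI'hom hfI' J' hJ'
  have hcast : ∀ i : Fin c', Fin.castLE h (Fin.castLE h' i) = Fin.castLE (h'.trans h) i :=
    fun i => rfl
  have hins : insideP (h'.trans h) (fun i : Fin c' => a (Fin.castLE h' i)) j =
      insideP h a j := by
    ext m
    constructor
    · rintro ⟨⟨i, hi⟩, hm⟩
      exact ⟨⟨Fin.castLE h' i, hi⟩, hm⟩
    · rintro ⟨⟨i, hi⟩, hm⟩
      have h3 : m (Fin.castLE h i) ≤ ∑ k, m k :=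
        Finset.single_le_sum (f := fun k => m k) (fun k _ => Nat.zero_le _) (Finset.mem_univ _)
      have h4 : i.1 < c' := (hc' i).mpr (by omega)
      exact ⟨⟨⟨i.1, h4⟩, hi⟩, hm⟩
  have hout : outside (h'.trans h) (fun i : Fin c' => a (Fin.castLE h' i)) j =
      outside h a j := by
    ext m
    constructor
    · rintro ⟨h1, hm⟩
      refine ⟨fun i => ?_, hm⟩
      by_cases hi : i.1 < c'
      · exact h1 ⟨i.1, hi⟩
      · have h2 : ¬ a i ≤ j := fun h2 => hi ((hc' i).mpr h2)
        have h3 : m (Fin.castLE h i) ≤ ∑ k, m k :=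
          Finset.single_le_sum (f := fun k => m k) (fun k _ => Nat.zero_le _) (Finset.mem_univ _)
        omega
    · rintro ⟨h1, hm⟩
      exact ⟨fun i => h1 (Fin.castLE h' i), hm⟩
  have hq : qdim (h'.trans h) (fun i : Fin c' => a (Fin.castLE h' i)) I' j = qdim h a I j := by
    have e1 : degPart I' j = degPart I j := hpj
    rw [qdim, qdim, e1, degPart_powerIdeal, degPart_powerIdeal, hins]
  have hJJ : piece J' j = piece J j := by
    rw [hJ2, hJ'2, lexPart_eq, lexPart_eq, lexSet, lexSet, hins, hout, hq]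
  have h1 : shd (piece J j) ≤ piece J' (j + 1) := by
    rw [← hJJ]
    exact shd_piece_le J' j
  have h2 : finrank K (shd (piece J j)) ≤ finrank K (piece J' (j + 1)) :=
    Submodule.finrank_mono h1
  have h3 : finrank K (piece I' (j + 1)) ≤ finrank K (shd (piece I j)) := by
    have : Module.Finite K (shd (piece I j)) := Submodule.finiteDimensional_of_le (shd_piece_le I j)
    exact Submodule.finrank_mono hpj1
  rw [hJ'3] at h2
  exact h2.trans h3

theorem socPiece_le_homogeneous (I : Ideal (MvPolynomial (Fin n) K)) (j : ℕ) :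
    socPiece I j ≤ homogeneousSubmodule (Fin n) K j := fun _ hu => hu.1

/-- linear forms multiply the socle forms into `I` -/
theorem linear_mul_mem {I : Ideal (MvPolynomial (Fin n) K)} {j : ℕ}
    {w u : MvPolynomial (Fin n) K} (hw : w.IsHomogeneous 1) (hu : u ∈ socPiece I j) :
    w * u ∈ I := by
  have h1 : w * u ∈ shd (socPiece I j) := by
    rw [w.as_sum, Finset.sum_mul]
    refine Submodule.sum_mem _ fun m hm => ?_
    have hdeg : ∑ i, m i = 1 := isHomogeneous_iff_support.mp hw m hm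
    obtain ⟨i, -, hi⟩ : ∃ i ∈ (Finset.univ : Finset (Fin n)), 0 < m i := by
      apply Finset.exists_lt_of_sum_lt
      simp [hdeg]
    have hmi : m = Finsupp.single i 1 := by
      have h2 := Finset.add_sum_erase Finset.univ m (Finset.mem_univ i)
      ext k
      by_cases hk : k = i
      · subst hk
        rw [Finsupp.single_eq_same]
        omega
      · rw [Finsupp.single_eq_of_ne hk]
        have h3 : m k ≤ ∑ x ∈ Finset.univ.erase i, m x :=
          Finset.single_le_sum (f := fun k => m k) (fun k _ => Nat.zero_le _)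
            (Finset.mem_erase.mpr ⟨hk, Finset.mem_univ _⟩)
        omega
    have h1 : monomial m (coeff m w) = coeff m w • (X i : MvPolynomial (Fin n) K) := by
      rw [X, smul_monomial, smul_eq_mul, mul_one, ← hmi]
    rw [h1, smul_mul_assoc]
    exact Submodule.smul_mem _ _ (Submodule.mem_iSup_of_mem i ⟨_, hu, rfl⟩)
  have h2 : shd (socPiece I j) ≤ I.restrictScalars K := by
    apply iSup_le
    rintro i _ ⟨v, hv, rfl⟩
    exact hv.2 i
  exact h2 h1

/-- largest socle -/
theorem socPiece_le (h : c ≤ n) (a : Fin c → ℕ) (ha : Monotone a) (hpos : ∀ i, 1 ≤ a i)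
    (f : Fin c → MvPolynomial (Fin n) K) (hf : ∀ i, (f i).IsHomogeneous (a i))
    (hreg : IsRegularSeq f) (hE : EGHfor h a f)
    (I : Ideal (MvPolynomial (Fin n) K)) (hI : HomIdeal I)
    (hfI : ∀ i, f i ∈ I) (J : Ideal (MvPolynomial (Fin n) K))
    (hJ : J.restrictScalars K = lexPlusPowers h a I) (j : ℕ) :
    finrank K (socPiece I j) ≤ finrank K (socPiece J j) := by
  obtain ⟨-, hJ2, -⟩ := lexPlusPowers_spec h a hpos f hf hreg I hI hfI J hJ
  set s : Set (MvPolynomial (Fin n) K) := (socPiece I j : Set (MvPolynomial (Fin n) K)) ∪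
    Set.range f with hs
  set I' : Ideal (MvPolynomial (Fin n) K) := Ideal.span s with hI'
  have hI'hom : HomIdeal I' := homIdeal_span fun g hg => by
    rcases hg with hg | ⟨i, rfl⟩
    · exact ⟨j, hg.1⟩
    · exact ⟨a i, hf i⟩
  have hfI' : ∀ i, f i ∈ I' := fun i => Ideal.subset_span (Or.inr ⟨i, rfl⟩)
  have hsoc : piece I j ≤ socPiece I j := fun g hg => ⟨hg.2, fun i => I.mul_mem_left _ hg.1⟩
  have hfcomp : ∀ (i : Fin c) (d : ℕ) (w : MvPolynomial (Fin n) K),
      homogeneousComponent d (w * f i) ∈ piece I d := by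
    intro i d w
    refine ⟨?_, homogeneousComponent_isHomogeneous _ _⟩
    exact hI _ (I.mul_mem_left _ (hfI i)) d
  have hpj : piece I' j ≤ socPiece I j := by
    apply piece_span_le
    rintro x (hx | ⟨i, rfl⟩) w
    · rw [comp_zero_mul w hx.1]
      exact Submodule.smul_mem _ _ hx
    · exact hsoc (hfcomp i j w)
  have hpj' : socPiece I j ≤ piece I' j := fun g hg => ⟨Ideal.subset_span (Or.inl hg), hg.1⟩
  have hpj1 : piece I' (j + 1) ≤ piece I (j + 1) := by
    apply piece_span_le
    rintro x (hx | ⟨i, rfl⟩) w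
    · refine ⟨?_, homogeneousComponent_isHomogeneous _ _⟩
      have h1 := comp_mul_add hx.1 w 1
      rw [add_comm 1 j] at h1
      show homogeneousComponent (j + 1) (w * x) ∈ I
      rw [mul_comm w x, h1, mul_comm]
      exact linear_mul_mem (homogeneousComponent_isHomogeneous _ _) hx
    · exact hfcomp i (j + 1) w
  obtain ⟨J', hJ'⟩ := hE I' hI'hom hfI'
  obtain ⟨-, hJ'2, hJ'3⟩ := lexPlusPowers_spec h a hpos f hf hreg I' hI'hom hfI' J' hJ'
  have hle : piece J' (j + 1) ≤ piece J (j + 1) := by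
    rw [hJ'2, hJ2, lexPart_eq, lexPart_eq]
    apply restrictSupport_mono
    apply lexSet_mono
    exact Nat.sub_le_sub_right (Submodule.finrank_mono hpj1) _
  have hsub : piece J' j ≤ socPiece J j := by
    intro u hu
    refine ⟨hu.2, fun i => ?_⟩
    have h1 : X i * u ∈ piece J' (j + 1) := by
      apply shd_piece_le J' j
      exact Submodule.mem_iSup_of_mem i ⟨u, hu, rfl⟩
    exact (hle h1).1
  have h1 : finrank K (socPiece I j) ≤ finrank K (piece I' j) := Submodule.finrank_mono hpj'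
  have h2 : finrank K (piece J' j) ≤ finrank K (socPiece J j) := by
    have : Module.Finite K (socPiece J j) :=
      Submodule.finiteDimensional_of_le (socPiece_le_homogeneous J j)
    exact Submodule.finrank_mono hsub
  rw [hJ'3] at h2
  exact h1.trans h2

theorem betti_one_le (h : c ≤ n) (a : Fin c → ℕ) (ha : Monotone a) (hpos : ∀ i, 1 ≤ a i)
    (f : Fin c → MvPolynomial (Fin n) K) (hf : ∀ i, (f i).IsHomogeneous (a i))
    (hreg : IsRegularSeq f)
    (hE : ∀ (c' : ℕ) (h' : c' ≤ c), EGHfor (h'.trans h) (fun i : Fin c' => a (Fin.castLE h' i))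
      (fun i : Fin c' => f (Fin.castLE h' i)))
    (I : Ideal (MvPolynomial (Fin n) K)) (hI : HomIdeal I)
    (hfI : ∀ i, f i ∈ I) (J : Ideal (MvPolynomial (Fin n) K))
    (hJ : J.restrictScalars K = lexPlusPowers h a I) (j : ℕ) :
    betti I 1 j ≤ betti J 1 j := by
  obtain ⟨hJ1, -, hJ3⟩ := lexPlusPowers_spec h a hpos f hf hreg I hI hfI J hJ
  rcases j with _ | j
  · rw [betti_of_lt I (Or.inr Nat.zero_lt_one)]
    exact Nat.zero_le _
  · have h1 := betti_one I hI j
    have h2 := betti_one J hJ1 j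
    have h3 := shd_le h a ha hpos f hf hreg hE I hI hfI J hJ j
    have h4 := hJ3 (j + 1)
    omega

theorem betti_top_le (h : c ≤ n) (a : Fin c → ℕ) (ha : Monotone a) (hpos : ∀ i, 1 ≤ a i)
    (f : Fin c → MvPolynomial (Fin n) K) (hf : ∀ i, (f i).IsHomogeneous (a i))
    (hreg : IsRegularSeq f) (hE : EGHfor h a f)
    (I : Ideal (MvPolynomial (Fin n) K)) (hI : HomIdeal I)
    (hfI : ∀ i, f i ∈ I) (J : Ideal (MvPolynomial (Fin n) K))
    (hJ : J.restrictScalars K = lexPlusPowers h a I) (j : ℕ) :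
    betti I n j ≤ betti J n j := by
  obtain ⟨hJ1, -, hJ3⟩ := lexPlusPowers_spec h a hpos f hf hreg I hI hfI J hJ
  rcases lt_or_ge j n with hj | hj
  · rw [betti_of_lt I (Or.inr hj)]
    exact Nat.zero_le _
  · obtain ⟨j, rfl⟩ := Nat.exists_eq_add_of_le' hj
    have h1 := betti_top I hI j
    have h2 := betti_top J hJ1 j
    have h3 := socPiece_le h a ha hpos f hf hreg hE I hI hfI J hJ j
    have h4 := hJ3 j
    omega

/-- **Lex-plus-powers inequalities in at most three variables**, from the growth property. -/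
theorem lpp_le_three (hn : n ≤ 3) (h : c ≤ n) (a : Fin c → ℕ) (ha : Monotone a)
    (hpos : ∀ i, 1 ≤ a i)
    (f : Fin c → MvPolynomial (Fin n) K) (hf : ∀ i, (f i).IsHomogeneous (a i))
    (hreg : IsRegularSeq f)
    (hE : ∀ (c' : ℕ) (h' : c' ≤ c), EGHfor (h'.trans h) (fun i : Fin c' => a (Fin.castLE h' i))
      (fun i : Fin c' => f (Fin.castLE h' i)))
    (I : Ideal (MvPolynomial (Fin n) K)) (hI : HomIdeal I)
    (hfI : ∀ i, f i ∈ I) (J : Ideal (MvPolynomial (Fin n) K))
    (hJ : J.restrictScalars K = lexPlusPowers h a I) (p j : ℕ) :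
    betti I p j ≤ betti J p j := by
  obtain ⟨hJ1, -, hJ3⟩ := lexPlusPowers_spec h a hpos f hf hreg I hI hfI J hJ
  have hhilb : ∀ d, hilb J d = hilb I d := by
    intro d
    rw [hilb, hilb, hJ3]
  have hE0 : EGHfor h a f := hE c le_rfl
  have hb0 : betti J 0 j = betti I 0 j := by
    rw [betti_zero I hI, betti_zero J hJ1, hhilb]
  rcases Nat.eq_zero_or_pos p with rfl | hp
  · exact hb0.ge
  rcases lt_or_ge n p with hnp | hnp
  · rw [betti_of_lt I (Or.inl hnp)]
    exact Nat.zero_le _
  rcases eq_or_lt_of_le hnp with rfl | hnp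
  · exact betti_top_le h a ha hpos f hf hreg hE0 I hI hfI J hJ j
  rcases eq_or_lt_of_le (Nat.succ_le_of_lt hp) with hp1 | hp1
  · have hp1' : p = 1 := hp1.symm
    subst hp1'
    exact betti_one_le h a ha hpos f hf hreg hE I hI hfI J hJ j
  have hn3 : n = 3 := by omega
  have hp2 : p = 2 := by omega
  subst hn3
  subst hp2
  have e1 := betti_euler I hI j
  have e2 := betti_euler J hJ1 j
  have e3 : ∑ p ∈ Finset.range (3 + 1), (-1 : ℤ) ^ p * ((3).choose p) *
        (if p ≤ j then (hilb J (j - p) : ℤ) else 0) =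
      ∑ p ∈ Finset.range (3 + 1), (-1 : ℤ) ^ p * ((3).choose p) *
        (if p ≤ j then (hilb I (j - p) : ℤ) else 0) := by
    simp only [hhilb]
  rw [e3, ← e1] at e2
  have b1 := betti_one_le h a ha hpos f hf hreg hE I hI hfI J hJ j
  have b3 := betti_top_le h a ha hpos f hf hreg hE0 I hI hfI J hJ j
  simp only [Finset.sum_range_succ, Finset.sum_range_zero, pow_zero, one_mul, zero_add, pow_one,
    neg_mul, even_two, Even.neg_pow, one_pow] at e2
  have e4 : (-1 : ℤ) ^ 3 = -1 := by norm_num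
  rw [e4] at e2
  omega

end Vale.Agent.P200.B
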